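import Vale.Agent.P052.H768.Irred

/-!
Borsuk's partition problem, mirror symmetric sets: the theorems for bounded sets.
-/

namespace Vale.Agent.P052.H768

open Metric Set
open scoped RealInnerProductSpace

variable {V : Type*} [NormedAddCommGroup V] [InnerProductSpace ℝ V] [FiniteDimensional ℝ V]

/-- A coordinate on a one dimensional orthogonal complement. -/
theorem exists_coord (U : Submodule ℝ V) (h1 : Module.finrank ℝ Uᗮ = 1) :
    ∃ ℓ : V → ℝ, Continuous ℓ ∧ ∀ x y, ‖zc U x - zc U y‖ ^ 2 = (ℓ x - ℓ y) ^ 2 := by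
  obtain ⟨v, hv0, hv⟩ := finrank_eq_one_iff'.1 h1
  have hv0' : (v : V) ≠ 0 := fun h => hv0 (Subtype.ext h)
  have hn : ‖(v : V)‖ ≠ 0 := norm_ne_zero_iff.2 hv0'
  refine ⟨fun x => ⟪(v : V), x⟫ / ‖(v : V)‖, by fun_prop, fun x y => ?_⟩
  obtain ⟨c, hc⟩ := hv ⟨zc U (x - y), zc_mem U (x - y)⟩
  have hc' : c • (v : V) = zc U (x - y) := congrArg Subtype.val hc
  have h2 : ⟪(v : V), x - y⟫ = c * ‖(v : V)‖ ^ 2 := by
    nth_rw 1 [← sp_add_zc U (x - y)]
    rw [inner_add_right, ← hc', inner_smul_right, real_inner_self_eq_norm_sq, real_inner_comm,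
      (Submodule.mem_orthogonal U _).1 v.2 _ (sp_mem U _), zero_add]
  rw [← zc_sub, ← hc', norm_smul, mul_pow, Real.norm_eq_abs, sq_abs, ← sub_div,
    ← inner_sub_right, h2, div_pow]
  field_simp

omit [FiniteDimensional ℝ V] in
/-- The mirrors of a closed set form a closed set. -/
theorem isClosed_mirrors {K : Set V} (hK : IsClosed K) :
    IsClosed {a : V | ‖a‖ = 1 ∧ ∀ v ∈ K, rf a v ∈ K} := by
  have h1 : {a : V | ‖a‖ = 1 ∧ ∀ v ∈ K, rf a v ∈ K}
      = {a : V | ‖a‖ = 1} ∩ ⋂ v ∈ K, (fun a => rf a v) ⁻¹' K := by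
    ext a; simp
  rw [h1]
  refine IsClosed.inter (isClosed_eq (by fun_prop) continuous_const) ?_
  refine isClosed_biInter fun v _ => hK.preimage ?_
  unfold rf
  fun_prop

section
variable {d k : ℕ} {X : Set (EuclideanSpace ℝ (Fin d))}

/-- The translated closure. -/
def tr (X : Set (EuclideanSpace ℝ (Fin d))) (p : EuclideanSpace ℝ (Fin d)) :
    Set (EuclideanSpace ℝ (Fin d)) := (fun x => x - p) '' closure X

theorem tr_compact (hX : Bornology.IsBounded X) (p : EuclideanSpace ℝ (Fin d)) :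
    IsCompact (tr X p) := hX.isCompact_closure.image (by fun_prop)

theorem tr_dist (hX : Bornology.IsBounded X) (p : EuclideanSpace ℝ (Fin d)) :
    ∀ x ∈ tr X p, ∀ y ∈ tr X p, dist x y ≤ Metric.diam X := by
  rintro _ ⟨x, hx, rfl⟩ _ ⟨y, hy, rfl⟩
  change dist (x - p) (y - p) ≤ Metric.diam X
  rw [dist_sub_right, ← Metric.diam_closure X]
  exact Metric.dist_le_diam_of_mem hX.closure hx hy

theorem tr_rf {a p : EuclideanSpace ℝ (Fin d)} {c : ℝ} (hp : ⟪a, p⟫ = c)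
    (hmir : ∀ x ∈ X, x - (2 * (⟪a, x⟫ - c)) • a ∈ X) : ∀ v ∈ tr X p, rf a v ∈ tr X p := by
  rintro _ ⟨x, hx, rfl⟩
  refine ⟨x - (2 * (⟪a, x⟫ - c)) • a, ?_, ?_⟩
  · exact map_mem_closure (f := fun x => x - (2 * (⟪a, x⟫ - c)) • a) (by fun_prop) hx
      (fun y hy => hmir y hy)
  · change x - (2 * (⟪a, x⟫ - c)) • a - p = rf a (x - p)
    rw [rf, inner_sub_right, hp]
    abel

/-- An obtuse basis of mirrors. -/
theorem exists_mirrors (hX : Bornology.IsBounded X) (α : Fin k → EuclideanSpace ℝ (Fin d))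
    (c : Fin k → ℝ) (hα : ∀ i, ‖α i‖ = 1) (hli : LinearIndependent ℝ α)
    (hmir : ∀ i, ∀ x ∈ X, x - (2 * (⟪α i, x⟫ - c i)) • α i ∈ X)
    (p : EuclideanSpace ℝ (Fin d)) (hp : ∀ i, ⟪α i, p⟫ = c i) :
    ∃ b : Fin k → EuclideanSpace ℝ (Fin d), (∀ i, ‖b i‖ = 1) ∧
      (∀ i, ∀ v ∈ tr X p, rf (b i) v ∈ tr X p) ∧ LinearIndependent ℝ b ∧
      Submodule.span ℝ (Set.range b) = Submodule.span ℝ (Set.range α) ∧
      ∀ i j, i ≠ j → ⟪b i, b j⟫ ≤ 0 := by
  obtain ⟨b, hbS, hbli, hbspan, hbob⟩ := exists_obtuse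
    {a | ‖a‖ = 1 ∧ ∀ v ∈ tr X p, rf a v ∈ tr X p}
    (isClosed_mirrors (tr_compact hX p).isClosed)
    (fun a ha => ha.1)
    (fun a ha b hb => ⟨by rw [norm_rf ha.1]; exact hb.1, fun v hv => by
      rw [rf_conj ha.1]
      exact ha.2 _ (hb.2 _ (ha.2 _ hv))⟩) α
    (fun i => ⟨hα i, tr_rf (hp i) (hmir i)⟩) hli
  exact ⟨b, fun i => (hbS i).1, fun i => (hbS i).2, hbli, hbspan, hbob⟩

/-- Sets with `k` independent mirrors, `k ≥ d - 1`, or with a symmetry that acts as `-1` on the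
orthogonal complement of the span of the mirror normals. -/
theorem main (hX : Bornology.IsBounded X)
    (hD : 0 < Metric.diam X) (α : Fin k → EuclideanSpace ℝ (Fin d)) (c : Fin k → ℝ)
    (hα : ∀ i, ‖α i‖ = 1) (hli : LinearIndependent ℝ α)
    (hmir : ∀ i, ∀ x ∈ X, x - (2 * (⟪α i, x⟫ - c i)) • α i ∈ X)
    (h : d ≤ k + 1 ∨ ∃ (p : EuclideanSpace ℝ (Fin d))
      (g : EuclideanSpace ℝ (Fin d) ≃ₗᵢ[ℝ] EuclideanSpace ℝ (Fin d)),
      (∀ i, ⟪α i, p⟫ = c i) ∧ (∀ z ∈ (Submodule.span ℝ (Set.range α))ᗮ, g z = -z) ∧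
      ∀ x ∈ X, p + g (x - p) ∈ X) :
    IsSmallerCover X (d + 1) := by
  have hfr : Module.finrank ℝ (Submodule.span ℝ (Set.range α))
      + Module.finrank ℝ (Submodule.span ℝ (Set.range α))ᗮ = d := by
    rw [Submodule.finrank_add_finrank_orthogonal, finrank_euclideanSpace_fin]
  rw [finrank_span_eq_card hli, Fintype.card_fin] at hfr
  -- the common point
  obtain ⟨p, hp, hg⟩ : ∃ p : EuclideanSpace ℝ (Fin d), (∀ i, ⟪α i, p⟫ = c i) ∧
      (k + 1 = d ∨ ∃ g : EuclideanSpace ℝ (Fin d) ≃ₗᵢ[ℝ] EuclideanSpace ℝ (Fin d),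
        (∀ z ∈ (Submodule.span ℝ (Set.range α))ᗮ, g z = -z) ∧ ∀ x ∈ X, p + g (x - p) ∈ X) := by
    rcases h with h | ⟨p, g, hp, hg, hgX⟩
    · obtain ⟨p, hp⟩ := exists_inner_eq α hli c
      refine ⟨p, hp, ?_⟩
      by_cases hk : k + 1 = d
      · exact Or.inl hk
      · refine Or.inr ⟨LinearIsometryEquiv.refl ℝ _, ?_, ?_⟩
        · intro z hz
          have h0 : Module.finrank ℝ (Submodule.span ℝ (Set.range α))ᗮ = 0 := by omega
          rw [Submodule.finrank_eq_zero] at h0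
          rw [h0, Submodule.mem_bot] at hz
          rw [hz]; simp
        · intro x hx
          simpa using hx
    · exact ⟨p, hp, Or.inr ⟨g, hg, hgX⟩⟩
  have hKc := tr_compact hX p
  have hKD := tr_dist hX p
  obtain ⟨b, hb1, hbinv, hbli, hbspan, hbob⟩ := exists_mirrors hX α c hα hli hmir p hp
  have hXK : ∀ x ∈ X, x - p ∈ tr X p := fun x hx => ⟨x, subset_closure hx, rfl⟩
  rcases hg with hk | ⟨g, hg, hgX⟩
  · obtain ⟨ℓ, hℓc, hℓ⟩ := exists_coord (Submodule.span ℝ (Set.range b)) (by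
      rw [hbspan]; omega)
    obtain ⟨C, hC, D', hD', hCd⟩ := cover_corank_one b hb1 hbli hbob hKc
      hbinv hD hKD ℓ hℓc hℓ
    exact smallerCover_of hD p (by simp; omega) C
      (fun x hx => mem_iUnion.1 (hC (hXK x hx))) hD' hCd
  · obtain ⟨C, hC, D', hD', hCd⟩ := cover_central b hb1 hbli hbob hKc
      hbinv hD hKD g (by rw [hbspan]; exact hg) (by
        rintro _ ⟨x, hx, rfl⟩
        refine ⟨p + g (x - p), ?_, by simp⟩
        exact map_mem_closure (f := fun x => p + g (x - p)) (by fun_prop) hx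
          (fun y hy => hgX y hy))
    refine smallerCover_of hD p ?_ C (fun x hx => mem_iUnion.1 (hC (hXK x hx))) hD' hCd
    rw [Fintype.card_sum, Fintype.card_fin, Fintype.card_option, Fintype.card_fin, hbspan]
    omega

/-- Sets with `k` independent mirrors whose normals form `r` irreducible blocks: `k + r` classes and
the classes of the common intersection of the mirrors. -/
theorem main_blocks {r N : ℕ} (hX : Bornology.IsBounded X)
    (hD : 0 < Metric.diam X) (α : Fin k → EuclideanSpace ℝ (Fin d)) (c : Fin k → ℝ)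
    (hα : ∀ i, ‖α i‖ = 1) (hli : LinearIndependent ℝ α)
    (hmir : ∀ i, ∀ x ∈ X, x - (2 * (⟪α i, x⟫ - c i)) • α i ∈ X)
    (κ : Fin k → Fin r) (hκ : IsBlocks α κ) (P : Fin N → Set (EuclideanSpace ℝ (Fin d)))
    (hPb : ∀ i, Bornology.IsBounded (P i)) (hPd : ∀ i, Metric.diam (P i) < Metric.diam X)
    (hP : closure X ∩ {x | ∀ i, ⟪α i, x⟫ = c i} ⊆ ⋃ i, P i) :
    IsSmallerCover X (k + r + N) := by
  obtain ⟨p, hp⟩ := exists_inner_eq α hli c
  have hKc := tr_compact hX p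
  have hKD := tr_dist hX p
  obtain ⟨b, hb1, hbinv, hbli, hbspan, hbob⟩ := exists_mirrors hX α c hα hli hmir p hp
  have hXK : ∀ x ∈ X, x - p ∈ tr X p := fun x hx => ⟨x, subset_closure hx, rfl⟩
  obtain ⟨C, hC, D', hD', hCd⟩ := cover_blocks α hα κ hκ (fun i => tr_rf (hp i) (hmir i))
    hKc hKD b hb1 hbli hbob hbspan hbinv (fun j : Fin N => (fun x => x - p) '' P j)
    (fun j => ⟨Metric.diam (P j), hPd j, by
      rintro _ ⟨x, hx, rfl⟩ _ ⟨y, hy, rfl⟩
      change dist (x - p) (y - p) ≤ _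
      rw [dist_sub_right]
      exact Metric.dist_le_diam_of_mem (hPb j) hx hy⟩)
    (by
      rintro _ ⟨x, hx, rfl⟩ h
      obtain ⟨j, hj⟩ := mem_iUnion.1 (hP ⟨hx, fun i => by
        have := h i
        rw [inner_sub_right, hp i] at this
        linarith⟩)
      exact ⟨j, x, hj, rfl⟩)
  refine smallerCover_of hD p ?_ C (fun x hx => mem_iUnion.1 (hC (hXK x hx))) hD' hCd
  simp only [Fintype.card_sum, Fintype.card_fin]
  omega

end

end Vale.Agent.P052.H768
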