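import Vale.Agent.P052.H25.Pent

/-!
Borsuk's partition problem, two free dimensions: the numerical comparisons.
-/

namespace Vale.Agent.P052.H768

open H25

theorem good_scale {D t a b : ℝ} (hD : 0 < D) (h : Good t a b) :
    Good (D * t) (D * a) (D * b) := by
  obtain ⟨h1, h2, h3, h4, h5⟩ := h
  have hD2 : 0 < D ^ 2 := by positivity
  have e : 2 * (D * t) * (D * a + D * b) - (D * t) ^ 2
      = D ^ 2 * (2 * t * (a + b) - t ^ 2) := by ring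
  refine ⟨?_, ?_, ?_, ?_, ?_⟩
  · rw [e, show 4 / 3 * (D * a) ^ 2 = D ^ 2 * (4 / 3 * a ^ 2) by ring]
    exact mul_lt_mul_of_pos_left h1 hD2
  · rw [e, show 4 / 3 * (D * b) ^ 2 = D ^ 2 * (4 / 3 * b ^ 2) by ring]
    exact mul_lt_mul_of_pos_left h2 hD2
  · rw [e, show 4 / 3 * ((D * a) ^ 2 + D * a * (D * b) / 2 + (D * b) ^ 2 / 4)
      = D ^ 2 * (4 / 3 * (a ^ 2 + a * b / 2 + b ^ 2 / 4)) by ring]
    exact mul_lt_mul_of_pos_left h3 hD2
  · rw [e, show 4 / 3 * ((D * b) ^ 2 + D * a * (D * b) / 2 + (D * a) ^ 2 / 4)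
      = D ^ 2 * (4 / 3 * (b ^ 2 + a * b / 2 + a ^ 2 / 4)) by ring]
    exact mul_lt_mul_of_pos_left h4 hD2
  · rw [e, show (D * a) ^ 2 + D * a * (D * b) + (D * b) ^ 2
      = D ^ 2 * (a ^ 2 + a * b + b ^ 2) by ring]
    exact mul_lt_mul_of_pos_left h5 hD2

theorem num_c2 {r s : ℝ} (hr0 : 1 / 34 < r) (hs0 : 1 / 34 < s) (hS : 2 / 17 ≤ r + s)
    (hr : r ≤ 1 / 2) (hs : s ≤ 1 / 2) :
    4 / 3 * ((25 / 29 * r + 29 / 200) ^ 2 + (25 / 29 * r + 29 / 200) * (25 / 29 * s + 29 / 200) / 2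
      + (25 / 29 * s + 29 / 200) ^ 2 / 4)
      < 2 * (29 / 50) * ((25 / 29 * r + 29 / 200) + (25 / 29 * s + 29 / 200)) - (29 / 50) ^ 2 := by
  nlinarith [mul_nonneg (sub_nonneg.2 hr0.le) (sub_nonneg.2 hr),
    mul_nonneg (sub_nonneg.2 hs0.le) (sub_nonneg.2 hs),
    mul_nonneg (sub_nonneg.2 hr0.le) (sub_nonneg.2 hs),
    mul_nonneg (sub_nonneg.2 hs0.le) (sub_nonneg.2 hr),
    mul_nonneg (sub_nonneg.2 hS) (sub_nonneg.2 hr),
    mul_nonneg (sub_nonneg.2 hS) (sub_nonneg.2 hs)]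

theorem num_c1 {r s : ℝ} (hr0 : 0 < r) (hs0 : 1 / 34 < s) (hr : r ≤ 1 / 2) :
    4 / 3 * (25 / 29 * r + 29 / 200) ^ 2
      < 2 * (29 / 50) * ((25 / 29 * r + 29 / 200) + (25 / 29 * s + 29 / 200)) - (29 / 50) ^ 2 := by
  nlinarith [mul_nonneg hr0.le (sub_nonneg.2 hr)]

theorem num_c3 {r s : ℝ} (h : r + s ≤ 34 * (r * s)) (hS : 2 / 17 ≤ r + s)
    (hr : r ≤ 1 / 2) (hs : s ≤ 1 / 2) :
    (25 / 29 * r + 29 / 200) ^ 2 + (25 / 29 * r + 29 / 200) * (25 / 29 * s + 29 / 200)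
      + (25 / 29 * s + 29 / 200) ^ 2
      < 2 * (29 / 50) * ((25 / 29 * r + 29 / 200) + (25 / 29 * s + 29 / 200)) - (29 / 50) ^ 2 := by
  rcases le_total (r + s) (3 / 4) with h1 | h1
  · nlinarith [mul_nonneg (sub_nonneg.2 hS) (sub_nonneg.2 h1)]
  · nlinarith [mul_nonneg (sub_nonneg.2 hr) (sub_nonneg.2 hs),
      mul_nonneg (sub_nonneg.2 h1) (show (0 : ℝ) ≤ 1 - (r + s) by linarith)]

theorem good_num {r s : ℝ} (hr0 : 0 < r) (hs0 : 0 < s) (h : r + s ≤ 34 * (r * s))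
    (hr : r ≤ 1 / 2) (hs : s ≤ 1 / 2) :
    Good (29 / 50) (25 / 29 * r + 29 / 200) (25 / 29 * s + 29 / 200) := by
  have hr1 : 1 / 34 < r := by
    by_contra hcon
    push Not at hcon
    nlinarith [mul_nonneg (sub_nonneg.2 hcon) hs0.le]
  have hs1 : 1 / 34 < s := by
    by_contra hcon
    push Not at hcon
    nlinarith [mul_nonneg (sub_nonneg.2 hcon) hr0.le]
  have hS : 2 / 17 ≤ r + s := by
    by_contra hcon
    push Not at hcon
    have h2 : 0 < r + s := by linarith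
    nlinarith [sq_nonneg (r - s), mul_pos h2 (sub_pos.2 hcon)]
  have c1 := num_c1 hr0 hs1 hr
  have c1' := num_c1 hs0 hr1 hs
  have c2 := num_c2 hr1 hs1 hS hr hs
  have c2' := num_c2 hs1 hr1 (by linarith) hs hr
  have c3 := num_c3 h hS hr hs
  refine ⟨c1, ?_, c2, ?_, c3⟩
  · linarith
  · linarith

theorem good_num_zero {r : ℝ} (hr0 : 0 ≤ r) (hr : r ≤ 1 / 2) :
    Good (3 / 5) (5 / 6 * r + 3 / 20) (5 / 6 * (1 / 2) + 3 / 20) := by
  refine ⟨?_, ?_, ?_, ?_, ?_⟩ <;> nlinarith [mul_nonneg hr0 (sub_nonneg.2 hr)]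

/-- Two points whose blocks have ranks of sum at most 15. -/
theorem good_sum {D ρ σ : ℝ} (hD : 0 < D) (p q : ℕ) (hpq : p + q ≤ 15)
    (hρ : D ^ 2 / (2 * ((p : ℝ) + 1)) ≤ ρ) (hσ : D ^ 2 / (2 * ((q : ℝ) + 1)) ≤ σ)
    (hρ1 : ρ ≤ D ^ 2 / 2) (hσ1 : σ ≤ D ^ 2 / 2) :
    Good (D * (29 / 50)) (ρ / (2 * (D * (29 / 50))) + (D * (29 / 50)) / 4)
      (σ / (2 * (D * (29 / 50))) + (D * (29 / 50)) / 4) := by
  have hD2 : 0 < D ^ 2 := by positivity
  set r : ℝ := ρ / D ^ 2 with hr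
  set s : ℝ := σ / D ^ 2 with hs
  have hρr : ρ = D ^ 2 * r := by rw [hr]; field_simp
  have hσs : σ = D ^ 2 * s := by rw [hs]; field_simp
  have hp0 : (0 : ℝ) < (p : ℝ) + 1 := by positivity
  have hq0 : (0 : ℝ) < (q : ℝ) + 1 := by positivity
  have hr1 : 1 ≤ 2 * ((p : ℝ) + 1) * r := by
    rw [div_le_iff₀ (by positivity), hρr] at hρ
    have : D ^ 2 * 1 ≤ D ^ 2 * (2 * ((p : ℝ) + 1) * r) := by linarith
    exact le_of_mul_le_mul_left this hD2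
  have hs1 : 1 ≤ 2 * ((q : ℝ) + 1) * s := by
    rw [div_le_iff₀ (by positivity), hσs] at hσ
    have : D ^ 2 * 1 ≤ D ^ 2 * (2 * ((q : ℝ) + 1) * s) := by linarith
    exact le_of_mul_le_mul_left this hD2
  have hr0 : 0 < r := by
    by_contra hcon
    push Not at hcon
    nlinarith [mul_nonneg hp0.le (neg_nonneg.2 hcon)]
  have hs0 : 0 < s := by
    by_contra hcon
    push Not at hcon
    nlinarith [mul_nonneg hq0.le (neg_nonneg.2 hcon)]
  have hr2 : r ≤ 1 / 2 := by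
    rw [hρr] at hρ1
    have : D ^ 2 * r ≤ D ^ 2 * (1 / 2) := by linarith
    exact le_of_mul_le_mul_left this hD2
  have hs2 : s ≤ 1 / 2 := by
    rw [hσs] at hσ1
    have : D ^ 2 * s ≤ D ^ 2 * (1 / 2) := by linarith
    exact le_of_mul_le_mul_left this hD2
  have hpq' : (p : ℝ) + q ≤ 15 := by exact_mod_cast hpq
  have h34 : r + s ≤ 34 * (r * s) := by
    have e1 : s ≤ 2 * ((p : ℝ) + 1) * (r * s) := by nlinarith
    have e2 : r ≤ 2 * ((q : ℝ) + 1) * (r * s) := by nlinarith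
    have e3 : 0 < r * s := mul_pos hr0 hs0
    nlinarith
  have := good_scale hD (good_num hr0 hs0 h34 hr2 hs2)
  have ea : D * (25 / 29 * r + 29 / 200) = ρ / (2 * (D * (29 / 50))) + (D * (29 / 50)) / 4 := by
    rw [hρr]; field_simp; ring
  have eb : D * (25 / 29 * s + 29 / 200) = σ / (2 * (D * (29 / 50))) + (D * (29 / 50)) / 4 := by
    rw [hσs]; field_simp; ring
  rw [ea, eb] at this
  exact this

/-- One of the two points has `u = 0`. -/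
theorem good_zero {D ρ : ℝ} (hD : 0 < D) (hρ : 0 ≤ ρ) (hρ1 : ρ ≤ D ^ 2 / 2) :
    Good (D * (3 / 5)) (ρ / (2 * (D * (3 / 5))) + (D * (3 / 5)) / 4)
      (D ^ 2 / 2 / (2 * (D * (3 / 5))) + (D * (3 / 5)) / 4) := by
  have hD2 : 0 < D ^ 2 := by positivity
  set r : ℝ := ρ / D ^ 2 with hr
  have hρr : ρ = D ^ 2 * r := by rw [hr]; field_simp
  have hr0 : 0 ≤ r := by rw [hr]; positivity
  have hr2 : r ≤ 1 / 2 := by
    rw [hρr] at hρ1
    have : D ^ 2 * r ≤ D ^ 2 * (1 / 2) := by linarith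
    exact le_of_mul_le_mul_left this hD2
  have := good_scale hD (good_num_zero hr0 hr2)
  have ea : D * (5 / 6 * r + 3 / 20) = ρ / (2 * (D * (3 / 5))) + (D * (3 / 5)) / 4 := by
    rw [hρr]; field_simp; ring
  have eb : D * (5 / 6 * (1 / 2) + 3 / 20)
      = D ^ 2 / 2 / (2 * (D * (3 / 5))) + (D * (3 / 5)) / 4 := by
    field_simp; ring
  rw [ea, eb] at this
  exact this

end Vale.Agent.P052.H768
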