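import Vale.Agent.P052.H768.JungB
import Vale.Agent.P052.H768.Corner
import Vale.Agent.P052.H25.Two

/-!
Borsuk's partition problem, mirror symmetric sets with two free dimensions.
-/

namespace Vale.Agent.P052.H768

open Metric Set H25
open scoped RealInnerProductSpace

section
variable {d k : ℕ} {X : Set (EuclideanSpace ℝ (Fin d))}

/-- Two free dimensions: it is enough to compare points without a common block. -/
theorem two_core (hdk : d = k + 2) (hX : Bornology.IsBounded X)
    (hD : 0 < Metric.diam X) (α : Fin k → EuclideanSpace ℝ (Fin d)) (c : Fin k → ℝ)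
    (hα : ∀ i, ‖α i‖ = 1) (hli : LinearIndependent ℝ α)
    (hmir : ∀ i, ∀ x ∈ X, x - (2 * (⟪α i, x⟫ - c i)) • α i ∈ X)
    (p : EuclideanSpace ℝ (Fin d)) (hp : ∀ i, ⟪α i, p⟫ = c i) {T : Type*} (κ : Fin k → T)
    (hκ : IsBlocks α κ) {t : ℝ} (ht : 0 < t)
    (H : ∀ x ∈ tr X p, ∀ y ∈ tr X p,
      (∀ s, (blk α κ s).starProjection x = 0 ∨ (blk α κ s).starProjection y = 0) →
      Good t (rad (Metric.diam X) t ((Submodule.span ℝ (Set.range α)).starProjection x))
        (rad (Metric.diam X) t ((Submodule.span ℝ (Set.range α)).starProjection y))) :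
    IsSmallerCover X (d + 1) := by
  have hfr : Module.finrank ℝ (Submodule.span ℝ (Set.range α))
      + Module.finrank ℝ (Submodule.span ℝ (Set.range α))ᗮ = d := by
    rw [Submodule.finrank_add_finrank_orthogonal, finrank_euclideanSpace_fin]
  rw [finrank_span_eq_card hli, Fintype.card_fin] at hfr
  have hKc := tr_compact hX p
  have hKD := tr_dist hX p
  obtain ⟨b, hb1, hbinv, hbli, hbspan, hbob⟩ := exists_mirrors hX α c hα hli hmir p hp
  have hXK : ∀ x ∈ X, x - p ∈ tr X p := fun x hx => ⟨x, subset_closure hx, rfl⟩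
  have hXne : X.Nonempty := by
    by_contra h
    rw [Set.not_nonempty_iff_eq_empty] at h
    rw [h, Metric.diam_empty] at hD
    exact lt_irrefl _ hD
  have hKne : (tr X p).Nonempty := by
    obtain ⟨x, hx⟩ := hXne
    exact ⟨x - p, hXK x hx⟩
  obtain ⟨q₁, q₂, hq₁, hq₂, hq⟩ := exists_coord_two (Submodule.span ℝ (Set.range b)) (by
    rw [hbspan]; omega)
  obtain ⟨C, hC, D', hD', hCd⟩ := cover_corank_two_of_good b hb1 hbli hbob hKc
    hKne hbinv hD hKD q₁ q₂ hq₁ hq₂ hq ht (by
      intro x hx y hy hxy
      rw [hbspan]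
      refine H x hx.1 y hy.1 fun s => ?_
      by_contra hcon
      push Not at hcon
      have h4 := ineq_blocks α hα κ hκ (fun i => tr_rf (hp i) (hmir i)) hKc hKD hx.1 hy.1
        hcon.1 hcon.2
      have h5 := rem_acute b hbli hbob hx hy
      have h6 := norm_sq_split_sub (Submodule.span ℝ (Set.range α)) x y
      rw [hbspan] at h5
      rw [dist_eq_norm] at hxy
      rw [hxy] at h6
      linarith)
  exact smallerCover_of hD p (by simp; omega) C
    (fun x hx => mem_iUnion.1 (hC (hXK x hx))) hD' hCd

/-- Sets of `ℝ^d`, `d ≤ 17`, with `d - 2` independent mirrors. -/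
theorem main_two_small (hdk : d = k + 2) (hd : d ≤ 17) (hX : Bornology.IsBounded X)
    (hD : 0 < Metric.diam X) (α : Fin k → EuclideanSpace ℝ (Fin d)) (c : Fin k → ℝ)
    (hα : ∀ i, ‖α i‖ = 1) (hli : LinearIndependent ℝ α)
    (hmir : ∀ i, ∀ x ∈ X, x - (2 * (⟪α i, x⟫ - c i)) • α i ∈ X) :
    IsSmallerCover X (d + 1) := by
  classical
  obtain ⟨p, hp⟩ := exists_inner_eq α hli c
  set κ := (graph α).connectedComponentMk with hκdef
  have hκ : IsBlocks α κ := isBlocks_graph α
  refine two_core hdk hX hD α c hα hli hmir p hp κ hκ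
    (t := Metric.diam X * (29 / 50)) (by positivity) ?_
  intro x hx y hy hxy
  set cd : (graph α).ConnectedComponent → ℕ :=
    fun s => (Finset.univ.filter fun i => κ i = s).card with hcd
  set Sx := (Finset.univ.image κ).filter fun s => (blk α κ s).starProjection x ≠ 0 with hSx
  set Sy := (Finset.univ.image κ).filter fun s => (blk α κ s).starProjection y ≠ 0 with hSy
  have hle : ∀ s, cd s ≤ k := fun s => by
    have := Finset.card_filter_le (Finset.univ : Finset (Fin k)) (fun i => κ i = s)
    simpa using this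
  have hbound : ∀ (z : EuclideanSpace ℝ (Fin d)) (s),
      (blk α κ s).starProjection z ≠ 0 →
      (Finset.univ.filter fun i => κ i = s).card ≤
        ((Finset.univ.image κ).filter fun s => (blk α κ s).starProjection z ≠ 0).sup cd := by
    intro z s hs
    by_cases hs' : s ∈ Finset.univ.image κ
    · exact Finset.le_sup (f := cd) (Finset.mem_filter.2 ⟨hs', hs⟩)
    · have : (Finset.univ.filter fun i => κ i = s) = ∅ := by
        rw [Finset.filter_eq_empty_iff]
        intro i _ hi
        exact hs' (by rw [← hi]; exact Finset.mem_image_of_mem κ (Finset.mem_univ i))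
      rw [this]
      simp
  have hsum : Sx.sup cd + Sy.sup cd ≤ k := by
    rcases Sx.eq_empty_or_nonempty with h1 | h1
    · rw [h1, Finset.sup_empty, Nat.bot_eq_zero, zero_add]
      exact Finset.sup_le fun s _ => hle s
    · rcases Sy.eq_empty_or_nonempty with h2 | h2
      · rw [h2, Finset.sup_empty, Nat.bot_eq_zero, add_zero]
        exact Finset.sup_le fun s _ => hle s
      · obtain ⟨s, hs, hs'⟩ := Finset.exists_mem_eq_sup Sx h1 cd
        obtain ⟨u, hu, hu'⟩ := Finset.exists_mem_eq_sup Sy h2 cd
        rw [hs', hu']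
        have hne : s ≠ u := by
          intro h
          rcases hxy s with h3 | h3
          · exact (Finset.mem_filter.1 hs).2 h3
          · rw [h] at h3
            exact (Finset.mem_filter.1 hu).2 h3
        have hdis : Disjoint (Finset.univ.filter fun i => κ i = s)
            (Finset.univ.filter fun i => κ i = u) := by
          rw [Finset.disjoint_filter]
          intro i _ h3 h4
          exact hne (by rw [← h3, h4])
        have h5 := Finset.card_le_univ ((Finset.univ.filter fun i => κ i = s)
          ∪ (Finset.univ.filter fun i => κ i = u))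
        rw [Finset.card_union_of_disjoint hdis, Fintype.card_fin] at h5
        exact h5
  refine good_sum hD (Sx.sup cd) (Sy.sup cd) (by omega) ?_ ?_ ?_ ?_
  · exact jung_rank α κ hα hκ.1 (tr_compact hX p) (fun i => tr_rf (hp i) (hmir i))
      (tr_dist hX p) hx _ (hbound x)
  · exact jung_rank α κ hα hκ.1 (tr_compact hX p) (fun i => tr_rf (hp i) (hmir i))
      (tr_dist hX p) hy _ (hbound y)
  · have := sq_nonneg ‖(Submodule.span ℝ (Set.range α)).starProjection x‖
    linarith
  · have := sq_nonneg ‖(Submodule.span ℝ (Set.range α)).starProjection y‖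
    linarith

/-- Sets of `ℝ^d` with `d - 2` independent mirrors whose normals do not split. -/
theorem main_two_irred (hdk : d = k + 2) (hX : Bornology.IsBounded X)
    (hD : 0 < Metric.diam X) (α : Fin k → EuclideanSpace ℝ (Fin d)) (c : Fin k → ℝ)
    (hα : ∀ i, ‖α i‖ = 1) (hli : LinearIndependent ℝ α)
    (hmir : ∀ i, ∀ x ∈ X, x - (2 * (⟪α i, x⟫ - c i)) • α i ∈ X)
    (hirr : ∀ J : Set (Fin k), J.Nonempty → J ≠ Set.univ → ∃ i ∈ J, ∃ j ∉ J, ⟪α i, α j⟫ ≠ 0) :
    IsSmallerCover X (d + 1) := by
  obtain ⟨p, hp⟩ := exists_inner_eq α hli c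
  set κ : Fin k → Unit := fun _ => () with hκdef
  have hκ : IsBlocks α κ := by
    refine ⟨fun i j h => absurd rfl h, fun J hJ i hi j _ => ?_⟩
    by_contra hj
    obtain ⟨i', hi', j', hj', h⟩ := hirr J ⟨i, hi⟩ (fun h => hj (by rw [h]; exact mem_univ j))
    exact h (hJ i' hi' j' hj')
  have hzero : ∀ z, (blk α κ ()).starProjection z = 0 →
      (Submodule.span ℝ (Set.range α)).starProjection z = 0 := by
    intro z hz
    refine eq_zero_of_mem_span α (sp_mem _ z) fun i => ?_
    have hi : α i ∈ Submodule.span ℝ (Set.range α) := Submodule.subset_span ⟨i, rfl⟩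
    rw [inner_sp _ hi, ← inner_sp _ (mem_blk α κ (rfl : κ i = ())), hz, inner_zero_right]
  have hlo : ∀ z ∈ tr X p, 0 ≤ Metric.diam X ^ 2 / 2
      - ‖(Submodule.span ℝ (Set.range α)).starProjection z‖ ^ 2 := by
    intro z hz
    have := ineq_two α hα (tr_compact hX p) (fun i => tr_rf (hp i) (hmir i)) hD
      (tr_dist hX p) hz
    linarith
  have hhi : ∀ z : EuclideanSpace ℝ (Fin d), Metric.diam X ^ 2 / 2
      - ‖(Submodule.span ℝ (Set.range α)).starProjection z‖ ^ 2 ≤ Metric.diam X ^ 2 / 2 := by
    intro z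
    have := sq_nonneg ‖(Submodule.span ℝ (Set.range α)).starProjection z‖
    linarith
  have hrad0 : ∀ t : ℝ, rad (Metric.diam X) t (0 : EuclideanSpace ℝ (Fin d))
      = Metric.diam X ^ 2 / 2 / (2 * t) + t / 4 := by
    intro t
    rw [rad, norm_zero]
    ring
  refine two_core hdk hX hD α c hα hli hmir p hp κ hκ
    (t := Metric.diam X * (3 / 5)) (by positivity) ?_
  intro x hx y hy hxy
  rcases hxy () with h | h
  · rw [hzero x h, hrad0]
    exact (good_zero hD (hlo y hy) (hhi y)).symm
  · rw [hzero y h, hrad0]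
    exact good_zero hD (hlo x hx) (hhi x)

end

end Vale.Agent.P052.H768
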