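import Vale.Agent.P052.H768.Irred
import Mathlib.Combinatorics.SimpleGraph.Connectivity.Connected

/-!
Borsuk's partition problem, mirror symmetric sets: existence of the irreducible blocks.
-/

namespace Vale.Agent.P052.H768

open Metric Set
open scoped RealInnerProductSpace

variable {V : Type*} [NormedAddCommGroup V] [InnerProductSpace ℝ V]

/-- Two vectors are adjacent if they are not orthogonal. -/
def graph {k : ℕ} (a : Fin k → V) : SimpleGraph (Fin k) where
  Adj i j := i ≠ j ∧ ⟪a i, a j⟫ ≠ 0
  symm := ⟨fun i j h => ⟨h.1.symm, by rw [real_inner_comm]; exact h.2⟩⟩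
  loopless := ⟨fun i h => h.1 rfl⟩

theorem isBlocks_graph {k : ℕ} (a : Fin k → V) :
    IsBlocks a (graph a).connectedComponentMk := by
  refine ⟨fun i j hij => ?_, fun J hJ i hi j hij => ?_⟩
  · by_contra h
    apply hij
    have hne : i ≠ j := fun h' => hij (by rw [h'])
    exact SimpleGraph.ConnectedComponent.sound (SimpleGraph.Adj.reachable ⟨hne, h⟩)
  · have hr : (graph a).Reachable i j := (SimpleGraph.ConnectedComponent.exact hij).symm
    clear hij
    obtain ⟨w⟩ := hr
    induction w with
    | nil => exact hi
    | cons h _ ih =>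
      refine ih ?_
      by_contra hcon
      exact h.2 (hJ _ hi _ hcon)

end Vale.Agent.P052.H768
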