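import Vale.Agent.P052.Defs
import Mathlib.Topology.ShrinkingLemma

/-!
Borsuk's partition problem, mirror symmetric sets: the covering lemmas (far = at distance `D`).
-/

namespace Vale.Agent.P052.H768

open Metric Set

variable {V : Type*} [MetricSpace V]

/-- A compact set with an open cover without far pairs has a closed cover with small diameters. -/
theorem shrink {ι : Type*} [Finite ι] {K : Set V} (hK : IsCompact K) {D : ℝ}
    (hD : ∀ x ∈ K, ∀ y ∈ K, dist x y ≤ D) (O : ι → Set V) (hO : ∀ i, IsOpen (O i))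
    (hcov : K ⊆ ⋃ i, O i)
    (hfar : ∀ i, ∀ x ∈ K, ∀ y ∈ K, x ∈ O i → y ∈ O i → dist x y ≠ D) :
    ∃ C : ι → Set V, (∀ i, IsCompact (C i)) ∧ (∀ i, C i ⊆ K) ∧ K ⊆ ⋃ i, C i ∧
      ∃ D' < D, ∀ i, ∀ x ∈ C i, ∀ y ∈ C i, dist x y ≤ D' := by
  obtain ⟨v, hv1, -, hv3⟩ := exists_subset_iUnion_closure_subset hK.isClosed hO
    (fun x _ => Set.toFinite _) hcov
  refine ⟨fun i => K ∩ closure (v i), fun i => hK.inter_right isClosed_closure,
    fun i => inter_subset_left, ?_, ?_⟩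
  · intro x hx
    obtain ⟨i, hi⟩ := mem_iUnion.1 (hv1 hx)
    exact mem_iUnion.2 ⟨i, hx, subset_closure hi⟩
  · set T : Set (V × V) := ⋃ i, (K ∩ closure (v i)) ×ˢ (K ∩ closure (v i)) with hT
    have hTc : IsCompact T := isCompact_iUnion fun i =>
      (hK.inter_right isClosed_closure).prod (hK.inter_right isClosed_closure)
    rcases T.eq_empty_or_nonempty with he | hne
    · refine ⟨D - 1, by linarith, fun i x hx y hy => ?_⟩
      have : (x, y) ∈ T := mem_iUnion.2 ⟨i, hx, hy⟩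
      rw [he] at this
      exact absurd this (by simp)
    · obtain ⟨q, hq, hmax⟩ := hTc.exists_isMaxOn hne
        (continuous_dist.continuousOn : ContinuousOn (fun p : V × V => dist p.1 p.2) T)
      refine ⟨dist q.1 q.2, ?_, fun i x hx y hy => ?_⟩
      · obtain ⟨i, hi⟩ := mem_iUnion.1 hq
        have h1 := hD q.1 hi.1.1 q.2 hi.2.1
        have h2 := hfar i q.1 hi.1.1 q.2 hi.2.1 (hv3 i hi.1.2) (hv3 i hi.2.2)
        exact lt_of_le_of_ne h1 h2
      · have : (x, y) ∈ T := mem_iUnion.2 ⟨i, hx, hy⟩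
        exact hmax this

/-- The two step covering lemma: open classes in `K`, open classes in the remainder. -/
theorem two_step {ι κ : Type*} [Finite ι] [Finite κ] {K : Set V} (hK : IsCompact K) {D : ℝ}
    (hD : ∀ x ∈ K, ∀ y ∈ K, dist x y ≤ D) (B : ι → Set V) (hB : ∀ i, IsOpen (B i))
    (hBfar : ∀ i, ∀ x ∈ K, ∀ y ∈ K, x ∈ B i → y ∈ B i → dist x y ≠ D)
    (O : κ → Set V) (hO : ∀ i, IsOpen (O i))
    (hcov : ∀ x ∈ K, (∀ i, x ∉ B i) → ∃ j, x ∈ O j)
    (hOfar : ∀ j, ∀ x ∈ K, ∀ y ∈ K, (∀ i, x ∉ B i) → (∀ i, y ∉ B i) → x ∈ O j → y ∈ O j →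
      dist x y ≠ D) :
    ∃ C : ι ⊕ κ → Set V, K ⊆ ⋃ i, C i ∧
      ∃ D' < D, ∀ i, ∀ x ∈ C i, ∀ y ∈ C i, dist x y ≤ D' := by
  set R : Set V := K \ ⋃ i, B i with hR
  have hRc : IsCompact R := hK.diff (isOpen_iUnion hB)
  have hRK : ∀ x ∈ R, x ∈ K := fun x hx => hx.1
  have hRB : ∀ x ∈ R, ∀ i, x ∉ B i := fun x hx i hi => hx.2 (mem_iUnion.2 ⟨i, hi⟩)
  obtain ⟨C, -, -, hC3, D₁, hD₁, hC4⟩ := shrink hRc
    (fun x hx y hy => hD x (hRK x hx) y (hRK y hy)) O hO
    (fun x hx => by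
      obtain ⟨j, hj⟩ := hcov x (hRK x hx) (hRB x hx)
      exact mem_iUnion.2 ⟨j, hj⟩)
    (fun j x hx y hy h1 h2 => hOfar j x (hRK x hx) y (hRK y hy) (hRB x hx) (hRB y hy) h1 h2)
  set δ : ℝ := (D - D₁) / 3 with hδ
  have hδ0 : 0 < δ := by rw [hδ]; linarith
  obtain ⟨P, -, -, hP3, D', hD', hP4⟩ := shrink (ι := ι ⊕ κ) hK hD
    (Sum.elim B (fun j => thickening δ (C j)))
    (by
      rintro (i | j)
      · exact hB i
      · exact isOpen_thickening)
    (by
      intro x hx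
      by_cases h : ∃ i, x ∈ B i
      · obtain ⟨i, hi⟩ := h
        exact mem_iUnion.2 ⟨Sum.inl i, hi⟩
      · have hxR : x ∈ R := by
          refine ⟨hx, fun h' => h ?_⟩
          obtain ⟨i, hi⟩ := mem_iUnion.1 h'
          exact ⟨i, hi⟩
        obtain ⟨j, hj⟩ := mem_iUnion.1 (hC3 hxR)
        exact mem_iUnion.2 ⟨Sum.inr j, self_subset_thickening hδ0 _ hj⟩)
    (by
      rintro (i | j) x hx y hy h1 h2
      · exact hBfar i x hx y hy h1 h2
      · obtain ⟨a, ha, ha'⟩ := mem_thickening_iff.1 h1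
        obtain ⟨b, hb, hb'⟩ := mem_thickening_iff.1 h2
        have h3 := hC4 j a ha b hb
        have h4 : dist x y ≤ dist x a + dist a b + dist b y := dist_triangle4 x a b y
        rw [dist_comm b y] at h4
        have h5 : dist x y < D := by
          have : δ + D₁ + δ < D := by rw [hδ]; linarith
          linarith
        exact ne_of_lt h5)
  exact ⟨P, hP3, D', hD', hP4⟩

/-- From a cover of (a translate of) the closure to a smaller cover. -/
theorem smallerCover_of {d : ℕ} {X : Set (EuclideanSpace ℝ (Fin d))}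
    (hD : 0 < Metric.diam X) (p : EuclideanSpace ℝ (Fin d)) {ι : Type*} [Fintype ι]
    {n : ℕ} (hι : Fintype.card ι = n) (C : ι → Set (EuclideanSpace ℝ (Fin d)))
    (hC : ∀ x ∈ X, ∃ i, x - p ∈ C i) {D' : ℝ} (hD' : D' < Metric.diam X)
    (hdist : ∀ i, ∀ x ∈ C i, ∀ y ∈ C i, dist x y ≤ D') : IsSmallerCover X n := by
  have e : ι ≃ Fin n := Fintype.equivFinOfCardEq hι
  refine ⟨fun j => {x ∈ X | x - p ∈ C (e.symm j)}, ?_, fun j => ?_⟩
  · ext x
    simp only [mem_iUnion, mem_ofPred_eq]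
    constructor
    · rintro ⟨i, hi, -⟩
      exact hi
    · intro hx
      obtain ⟨i, hi⟩ := hC x hx
      exact ⟨e i, hx, by simpa using hi⟩
  · refine lt_of_le_of_lt (Metric.diam_le_of_forall_dist_le (C := max D' 0) (le_max_right _ _) ?_)
      (max_lt hD' hD)
    intro x hx y hy
    have := hdist (e.symm j) _ hx.2 _ hy.2
    rw [dist_sub_right] at this
    exact le_trans this (le_max_left _ _)

end Vale.Agent.P052.H768
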