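import Vale.Agent.P052.H768.Ineq
import Vale.Agent.P052.H768.Cover

/-!
Borsuk's partition problem, mirror symmetric sets: the two covering theorems for compact sets.
-/

namespace Vale.Agent.P052.H768

open Metric Set
open scoped RealInnerProductSpace

variable {V : Type*} [NormedAddCommGroup V] [InnerProductSpace ℝ V]

/-- Two points on the same side of a mirror are not far. -/
theorem not_far_of_side {b : V} (hb : ‖b‖ = 1) {K : Set V} (hinv : ∀ v ∈ K, rf b v ∈ K) {D : ℝ}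
    (hD : ∀ x ∈ K, ∀ y ∈ K, dist x y ≤ D) {x y : V} (hx : x ∈ K) (hy : y ∈ K)
    (hbx : 0 < ⟪b, x⟫) (hby : 0 < ⟪b, y⟫) : dist x y ≠ D := by
  have hbb : ⟪b, b⟫ = (1 : ℝ) := by rw [real_inner_self_eq_norm_sq, hb]; norm_num
  have h1 : ‖x - rf b y‖ ^ 2 = ‖x - y‖ ^ 2 + 4 * ⟪b, x⟫ * ⟪b, y⟫ := by
    rw [← real_inner_self_eq_norm_sq, ← real_inner_self_eq_norm_sq]
    simp only [rf, inner_sub_left, inner_sub_right, real_inner_smul_left, inner_smul_right]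
    rw [hbb, real_inner_comm b x, real_inner_comm b y]
    ring
  have h2 : ‖x - rf b y‖ ≤ D := by
    rw [← dist_eq_norm]; exact hD x hx _ (hinv y hy)
  have h3 : ‖x - rf b y‖ ^ 2 ≤ D ^ 2 := pow_le_pow_left₀ (norm_nonneg _) h2 2
  intro h4
  rw [dist_eq_norm] at h4
  rw [h4] at h1
  have := mul_pos hbx hby
  nlinarith

/-- The remainder. -/
def rem {k : ℕ} (b : Fin k → V) (K : Set V) : Set V := {x | x ∈ K ∧ ∀ i, ⟪b i, x⟫ ≤ 0}

theorem rem_compact {k : ℕ} (b : Fin k → V) {K : Set V} (hK : IsCompact K) :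
    IsCompact (rem b K) := by
  refine hK.inter_right ?_
  have : {x : V | ∀ i, ⟪b i, x⟫ ≤ 0} = ⋂ i, {x : V | ⟪b i, x⟫ ≤ 0} := by ext x; simp
  change IsClosed {x : V | ∀ i, ⟪b i, x⟫ ≤ 0}
  rw [this]
  exact isClosed_iInter fun i => isClosed_le (by fun_prop) (by fun_prop)

/-- Covering `K` when the remainder has a good open cover. -/
theorem core_cover {k : ℕ} (b : Fin k → V) (hb : ∀ i, ‖b i‖ = 1) {K : Set V} (hK : IsCompact K)
    (hinv : ∀ i, ∀ v ∈ K, rf (b i) v ∈ K) {D : ℝ} (hD : ∀ x ∈ K, ∀ y ∈ K, dist x y ≤ D)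
    {κ : Type*} [Finite κ] (O : κ → Set V) (hO : ∀ i, IsOpen (O i))
    (hcov : ∀ x ∈ rem b K, ∃ j, x ∈ O j)
    (hOfar : ∀ j, ∀ x ∈ rem b K, ∀ y ∈ rem b K, x ∈ O j → y ∈ O j → dist x y ≠ D) :
    ∃ C : Fin k ⊕ κ → Set V, K ⊆ ⋃ i, C i ∧
      ∃ D' < D, ∀ i, ∀ x ∈ C i, ∀ y ∈ C i, dist x y ≤ D' := by
  refine two_step hK hD (fun i => {x | 0 < ⟪b i, x⟫})
    (fun i => isOpen_lt (by fun_prop) (by fun_prop))
    (fun i x hx y hy h1 h2 => not_far_of_side (hb i) (hinv i) hD hx hy h1 h2) O hO ?_ ?_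
  · intro x hx h
    exact hcov x ⟨hx, fun i => not_lt.1 (h i)⟩
  · intro j x hx y hy h1 h2 h3 h4
    exact hOfar j x ⟨hx, fun i => not_lt.1 (h1 i)⟩ y ⟨hy, fun i => not_lt.1 (h2 i)⟩ h3 h4

variable [FiniteDimensional ℝ V]

theorem rem_acute {k : ℕ} (b : Fin k → V) (hli : LinearIndependent ℝ b)
    (hob : ∀ i j, i ≠ j → ⟪b i, b j⟫ ≤ 0) {K : Set V} {x y : V} (hx : x ∈ rem b K)
    (hy : y ∈ rem b K) :
    0 ≤ ⟪(Submodule.span ℝ (Set.range b)).starProjection x,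
      (Submodule.span ℝ (Set.range b)).starProjection y⟫ := by
  refine acute b hli hob (sp_mem _ x) ?_ ?_
  · intro i
    have hi : b i ∈ Submodule.span ℝ (Set.range b) := Submodule.subset_span ⟨i, rfl⟩
    rw [inner_sp _ hi]
    exact hx.2 i
  · intro i
    have hi : b i ∈ Submodule.span ℝ (Set.range b) := Submodule.subset_span ⟨i, rfl⟩
    rw [inner_sp _ hi]
    exact hy.2 i

section
variable {k : ℕ} (b : Fin k → V) (hb : ∀ i, ‖b i‖ = 1) (hli : LinearIndependent ℝ b)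
  (hob : ∀ i j, i ≠ j → ⟪b i, b j⟫ ≤ 0) {K : Set V} (hK : IsCompact K)
  (hinv : ∀ i, ∀ v ∈ K, rf (b i) v ∈ K) {D : ℝ} (hD0 : 0 < D)
  (hD : ∀ x ∈ K, ∀ y ∈ K, dist x y ≤ D)

include hb hli hob hK hinv hD0 hD

/-- One free dimension: two further classes. -/
theorem cover_corank_one
    (ℓ : V → ℝ) (hℓc : Continuous ℓ) (hℓ : ∀ x y, ‖zc (Submodule.span ℝ (Set.range b)) x
      - zc (Submodule.span ℝ (Set.range b)) y‖ ^ 2 = (ℓ x - ℓ y) ^ 2) :
    ∃ C : Fin k ⊕ Bool → Set V, K ⊆ ⋃ i, C i ∧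
      ∃ D' < D, ∀ i, ∀ x ∈ C i, ∀ y ∈ C i, dist x y ≤ D' := by
  set U := Submodule.span ℝ (Set.range b) with hU
  set R := rem b K with hR
  have hRc : IsCompact R := rem_compact b hK
  set L : Set V := {v | ∃ w, v ∈ R ∧ w ∈ R ∧ dist v w = D ∧ ℓ v ≤ ℓ w} with hL
  set L' : Set V := {v | ∃ w, v ∈ R ∧ w ∈ R ∧ dist v w = D ∧ ℓ w ≤ ℓ v} with hL'
  have hLc : IsClosed L := by
    have h1 : IsCompact ((R ×ˢ R) ∩ {q : V × V | dist q.1 q.2 = D ∧ ℓ q.1 ≤ ℓ q.2}) :=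
      (hRc.prod hRc).inter_right (IsClosed.inter (isClosed_eq (by fun_prop) continuous_const)
        (isClosed_le (hℓc.comp continuous_fst) (hℓc.comp continuous_snd)))
    have h2 : L = Prod.fst '' ((R ×ˢ R) ∩ {q : V × V | dist q.1 q.2 = D ∧ ℓ q.1 ≤ ℓ q.2}) := by
      ext v
      constructor
      · rintro ⟨w, hv, hw, h3, h4⟩
        exact ⟨(v, w), ⟨⟨hv, hw⟩, h3, h4⟩, rfl⟩
      · rintro ⟨⟨v', w⟩, ⟨⟨hv, hw⟩, h3, h4⟩, rfl⟩
        exact ⟨w, hv, hw, h3, h4⟩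
    rw [h2]
    exact (h1.image continuous_fst).isClosed
  have hLc' : IsClosed L' := by
    have h1 : IsCompact ((R ×ˢ R) ∩ {q : V × V | dist q.1 q.2 = D ∧ ℓ q.2 ≤ ℓ q.1}) :=
      (hRc.prod hRc).inter_right (IsClosed.inter (isClosed_eq (by fun_prop) continuous_const)
        (isClosed_le (hℓc.comp continuous_snd) (hℓc.comp continuous_fst)))
    have h2 : L' = Prod.fst '' ((R ×ˢ R) ∩ {q : V × V | dist q.1 q.2 = D ∧ ℓ q.2 ≤ ℓ q.1}) := by
      ext v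
      constructor
      · rintro ⟨w, hv, hw, h3, h4⟩
        exact ⟨(v, w), ⟨⟨hv, hw⟩, h3, h4⟩, rfl⟩
      · rintro ⟨⟨v', w⟩, ⟨⟨hv, hw⟩, h3, h4⟩, rfl⟩
        exact ⟨w, hv, hw, h3, h4⟩
    rw [h2]
    exact (h1.image continuous_fst).isClosed
  have hdisj : ∀ v, v ∈ L → v ∈ L' → False := by
    rintro v ⟨w₁, hv, hw₁, hd₁, hl₁⟩ ⟨w₂, -, hw₂, hd₂, hl₂⟩
    have e1 := norm_sq_split_sub U v w₁
    have e2 := norm_sq_split_sub U v w₂
    rw [dist_eq_norm] at hd₁ hd₂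
    rw [hd₁, hℓ] at e1
    rw [hd₂, hℓ] at e2
    have a1 := rem_acute b hli hob hv hw₁
    have a2 := rem_acute b hli hob hv hw₂
    have i1 := ineq_one b hb hK hinv hD hw₁.1 hw₂.1
    rw [hℓ] at i1
    have i2 := ineq_two b hb hK hinv hD0 hD hv.1
    have h5 : 0 ≤ (ℓ w₁ - ℓ v) * (ℓ v - ℓ w₂) :=
      mul_nonneg (sub_nonneg.2 hl₁) (sub_nonneg.2 hl₂)
    rw [← hU] at a1 a2 i1 i2
    nlinarith
  refine core_cover b hb hK hinv hD (κ := Bool) (fun i => if i then Lᶜ else L'ᶜ) ?_ ?_ ?_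
  · intro i
    cases i
    · simpa using hLc'
    · simpa using hLc
  · intro x _
    by_cases h : x ∈ L
    · exact ⟨false, by simpa using fun h' => hdisj x h h'⟩
    · exact ⟨true, by simpa using h⟩
  · intro j x hx y hy h1 h2 h3
    have h3' : dist y x = D := by rw [dist_comm]; exact h3
    cases j
    · have h1' : x ∉ L' := by simpa using h1
      have h2' : y ∉ L' := by simpa using h2
      rcases le_total (ℓ x) (ℓ y) with h | h
      · exact h2' ⟨x, hy, hx, h3', h⟩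
      · exact h1' ⟨y, hx, hy, h3, h⟩
    · have h1' : x ∉ L := by simpa using h1
      have h2' : y ∉ L := by simpa using h2
      rcases le_total (ℓ x) (ℓ y) with h | h
      · exact h1' ⟨y, hx, hy, h3, h⟩
      · exact h2' ⟨x, hy, hx, h3', h⟩

/-- A symmetry acting as `-1` on the orthogonal complement: `m + 1` further classes. -/
theorem cover_central (g : V ≃ₗᵢ[ℝ] V)
    (hg : ∀ z ∈ (Submodule.span ℝ (Set.range b))ᗮ, g z = -z) (hgK : ∀ x ∈ K, g x ∈ K) :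
    ∃ C : Fin k ⊕ Option (Fin (Module.finrank ℝ (Submodule.span ℝ (Set.range b))ᗮ)) → Set V,
      K ⊆ ⋃ i, C i ∧ ∃ D' < D, ∀ i, ∀ x ∈ C i, ∀ y ∈ C i, dist x y ≤ D' := by
  set U := Submodule.span ℝ (Set.range b) with hU
  set R := rem b K with hR
  have hRc : IsCompact R := rem_compact b hK
  -- the inequality with the symmetry
  have hgU : ∀ u ∈ U, g u ∈ U := by
    intro u hu
    have h1 : g u ∈ (Uᗮ)ᗮ := by
      rw [Submodule.mem_orthogonal]
      intro z hz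
      have h2 : ⟪g (-z), g u⟫ = ⟪-z, u⟫ := g.inner_map_map _ _
      have h3 : ⟪z, u⟫ = (0 : ℝ) := by
        rw [real_inner_comm]; exact (Submodule.mem_orthogonal U z).1 hz u hu
      rw [hg (-z) (Submodule.neg_mem _ hz), neg_neg, inner_neg_left, h3, neg_zero] at h2
      exact h2
    rwa [Submodule.orthogonal_orthogonal] at h1
  have hgsp : ∀ y, U.starProjection (g y) = g (U.starProjection y) := by
    intro y
    refine Submodule.eq_starProjection_of_mem_orthogonal (hgU _ (sp_mem U y)) ?_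
    have h1 : g y - g (U.starProjection y) = -(zc U y) := by
      rw [← map_sub]
      exact hg _ (zc_mem U y)
    rw [h1]
    exact Submodule.neg_mem _ (zc_mem U y)
  have hgz : ∀ y, zc U (g y) = -(zc U y) := by
    intro y
    rw [zc, hgsp, ← map_sub]
    exact hg _ (zc_mem U y)
  have i3 : ∀ x ∈ K, ∀ y ∈ K, ‖U.starProjection x‖ ^ 2 + ‖U.starProjection y‖ ^ 2
      + ‖zc U x + zc U y‖ ^ 2 ≤ D ^ 2 := by
    intro x hx y hy
    have h1 := ineq_one b hb hK hinv hD hx (hgK y hy)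
    rw [← hU, hgsp, hgz, g.norm_map, sub_neg_eq_add] at h1
    exact h1
  have hfar : ∀ x ∈ R, ∀ y ∈ R, dist x y = D → zc U y = -(zc U x) ∧ zc U x ≠ 0 := by
    intro x hx y hy hxy
    have e1 := norm_sq_split_sub U x y
    rw [dist_eq_norm] at hxy
    rw [hxy] at e1
    have a1 := rem_acute b hli hob hx hy
    rw [← hU] at a1
    have j1 := i3 x hx.1 x hx.1
    have j2 := i3 y hy.1 y hy.1
    have j3 : ‖zc U x + zc U x‖ ^ 2 = 4 * ‖zc U x‖ ^ 2 := by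
      rw [← two_smul ℝ (zc U x), norm_smul]; norm_num; ring
    have j4 : ‖zc U y + zc U y‖ ^ 2 = 4 * ‖zc U y‖ ^ 2 := by
      rw [← two_smul ℝ (zc U y), norm_smul]; norm_num; ring
    rw [j3] at j1
    rw [j4] at j2
    have j5 : ‖zc U x - zc U y‖ ^ 2 = 2 * ‖zc U x‖ ^ 2 + 2 * ‖zc U y‖ ^ 2
        - ‖zc U x + zc U y‖ ^ 2 := by
      rw [norm_sub_sq_real, norm_add_sq_real]; ring
    rw [j5] at e1
    have j6 : ‖zc U x + zc U y‖ ^ 2 ≤ 0 := by linarith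
    have j7 : zc U x + zc U y = 0 := by
      have : ‖zc U x + zc U y‖ ^ 2 = 0 := le_antisymm j6 (sq_nonneg _)
      exact norm_eq_zero.1 (pow_eq_zero_iff (by norm_num) |>.1 this)
    refine ⟨eq_neg_of_add_eq_zero_right j7, fun h0 => ?_⟩
    have k1 := ineq_two b hb hK hinv hD0 hD hx.1
    have k2 := ineq_two b hb hK hinv hD0 hD hy.1
    rw [← hU] at k1 k2
    have h0' : zc U y = 0 := by rw [h0, zero_add] at j7; exact j7
    rw [h0, h0', add_zero, norm_zero] at e1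
    nlinarith
  set Δ : Set V := {v | ∃ w, v ∈ R ∧ w ∈ R ∧ dist v w = D} with hΔ
  have hΔc : IsClosed Δ := by
    have h1 : IsCompact ((R ×ˢ R) ∩ {q : V × V | dist q.1 q.2 = D}) :=
      (hRc.prod hRc).inter_right (isClosed_eq (by fun_prop) continuous_const)
    have h2 : Δ = Prod.fst '' ((R ×ˢ R) ∩ {q : V × V | dist q.1 q.2 = D}) := by
      ext v
      constructor
      · rintro ⟨w, hv, hw, h3⟩
        exact ⟨(v, w), ⟨⟨hv, hw⟩, h3⟩, rfl⟩
      · rintro ⟨⟨v', w⟩, ⟨⟨hv, hw⟩, h3⟩, rfl⟩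
        exact ⟨w, hv, hw, h3⟩
    rw [h2]
    exact (h1.image continuous_fst).isClosed
  set w := stdOrthonormalBasis ℝ Uᗮ with hw
  set q : Option (Fin (Module.finrank ℝ Uᗮ)) → V :=
    fun j => j.elim (-(∑ i, ((w i : Uᗮ) : V))) (fun i => ((w i : Uᗮ) : V)) with hq
  have hqz : ∀ j x, ⟪q j, x⟫ = ⟪q j, zc U x⟫ := by
    intro j x
    have hqj : q j ∈ Uᗮ := by
      cases j with
      | none => exact Submodule.neg_mem _ (Submodule.sum_mem _ fun i _ => (w i).2)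
      | some i => exact (w i).2
    nth_rw 1 [← sp_add_zc U x]
    rw [inner_add_right, real_inner_comm,
      (Submodule.mem_orthogonal U _).1 hqj _ (sp_mem U x), zero_add]
  have hqpos : ∀ z ∈ Uᗮ, z ≠ 0 → ∃ j, 0 < ⟪q j, z⟫ := by
    intro z hz hz0
    by_contra hcon
    push Not at hcon
    have h1 : ∀ i, ⟪((w i : Uᗮ) : V), z⟫ ≤ 0 := fun i => hcon (some i)
    have h2 : 0 ≤ ∑ i, ⟪((w i : Uᗮ) : V), z⟫ := by
      have := hcon none
      simp only [hq, Option.elim_none, inner_neg_left, sum_inner] at this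
      linarith
    have h3 : ∀ i, ⟪((w i : Uᗮ) : V), z⟫ = 0 := by
      have h4 : ∑ i, ⟪((w i : Uᗮ) : V), z⟫ = 0 :=
        le_antisymm (Finset.sum_nonpos fun i _ => h1 i) h2
      intro i
      exact (Finset.sum_eq_zero_iff_of_nonpos (fun i _ => h1 i)).1 h4 i (Finset.mem_univ i)
    have h5 : (⟨z, hz⟩ : Uᗮ) = 0 := by
      rw [← w.sum_repr' ⟨z, hz⟩]
      refine Finset.sum_eq_zero fun i _ => ?_
      have : ⟪w i, (⟨z, hz⟩ : Uᗮ)⟫ = 0 := h3 i
      rw [this, zero_smul]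
    exact hz0 (congrArg Subtype.val h5)
  refine core_cover b hb hK hinv hD (fun j => {x | 0 < ⟪q j, x⟫} ∪ Δᶜ) ?_ ?_ ?_
  · intro j
    exact (isOpen_lt (by fun_prop) (by fun_prop)).union hΔc.isOpen_compl
  · intro x _
    by_cases h : x ∈ Δ
    · obtain ⟨y, hx, hy, hxy⟩ := h
      obtain ⟨j, hj⟩ := hqpos _ (zc_mem U x) (hfar x hx y hy hxy).2
      exact ⟨j, Or.inl (by rw [mem_ofPred_eq, hqz]; exact hj)⟩
    · exact ⟨none, Or.inr h⟩
  · intro j x hx y hy h1 h2 h3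
    have hxΔ : x ∈ Δ := ⟨y, hx, hy, h3⟩
    have hyΔ : y ∈ Δ := ⟨x, hy, hx, by rw [dist_comm]; exact h3⟩
    have g1 : 0 < ⟪q j, x⟫ := h1.resolve_right (fun h => h hxΔ)
    have g2 : 0 < ⟪q j, y⟫ := h2.resolve_right (fun h => h hyΔ)
    rw [hqz] at g1 g2
    rw [(hfar x hx y hy h3).1, inner_neg_right] at g2
    linarith

end

end Vale.Agent.P052.H768
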