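import Vale.Agent.P052.H768.Obtuse

/-!
Borsuk's partition problem, mirror symmetric sets: the distance inequalities.
`U` is the span of the mirror normals, `x = u + z` with `u = U.starProjection x`.
-/

namespace Vale.Agent.P052.H768

open Metric Set
open scoped RealInnerProductSpace

variable {V : Type*} [NormedAddCommGroup V] [InnerProductSpace ℝ V] [FiniteDimensional ℝ V]

/-- The component orthogonal to `U`. -/
noncomputable def zc (U : Submodule ℝ V) (x : V) : V := x - U.starProjection x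

theorem zc_mem (U : Submodule ℝ V) (x : V) : zc U x ∈ Uᗮ :=
  Submodule.sub_starProjection_mem_orthogonal x

theorem sp_mem (U : Submodule ℝ V) (x : V) : U.starProjection x ∈ U :=
  Submodule.starProjection_apply_mem U x

theorem sp_add_zc (U : Submodule ℝ V) (x : V) : U.starProjection x + zc U x = x := by
  rw [zc]; abel

theorem inner_zc (U : Submodule ℝ V) {a : V} (ha : a ∈ U) (x : V) : ⟪a, zc U x⟫ = 0 :=
  (Submodule.mem_orthogonal U _).1 (zc_mem U x) a ha

theorem inner_sp (U : Submodule ℝ V) {a : V} (ha : a ∈ U) (x : V) :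
    ⟪a, U.starProjection x⟫ = ⟪a, x⟫ := by
  nth_rw 2 [← sp_add_zc U x]
  rw [inner_add_right, inner_zc U ha, add_zero]

theorem zc_sub (U : Submodule ℝ V) (x y : V) : zc U (x - y) = zc U x - zc U y := by
  simp only [zc, map_sub]; abel

theorem norm_sq_split (U : Submodule ℝ V) (x : V) :
    ‖x‖ ^ 2 = ‖U.starProjection x‖ ^ 2 + ‖zc U x‖ ^ 2 := by
  have h : ⟪U.starProjection x, zc U x⟫ = (0 : ℝ) := inner_zc U (sp_mem U x) x
  have h2 : ⟪x, x⟫ = ⟪U.starProjection x + zc U x, U.starProjection x + zc U x⟫ := by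
    rw [sp_add_zc]
  have h' : ⟪zc U x, U.starProjection x⟫ = (0 : ℝ) := by rw [real_inner_comm]; exact h
  rw [← real_inner_self_eq_norm_sq, h2, inner_add_left, inner_add_right, inner_add_right, h,
    h', real_inner_self_eq_norm_sq, real_inner_self_eq_norm_sq]
  ring

theorem norm_sq_split_sub (U : Submodule ℝ V) (x y : V) :
    ‖x - y‖ ^ 2 = ‖U.starProjection x‖ ^ 2 + ‖U.starProjection y‖ ^ 2
      - 2 * ⟪U.starProjection x, U.starProjection y⟫ + ‖zc U x - zc U y‖ ^ 2 := by
  rw [norm_sq_split U (x - y), zc_sub, map_sub, norm_sub_sq_real]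
  ring

theorem sp_rf (U : Submodule ℝ V) {a : V} (ha : a ∈ U) (x : V) :
    U.starProjection (rf a x) = rf a (U.starProjection x) := by
  rw [rf, rf, map_sub, map_smul, inner_sp U ha, (Submodule.starProjection_eq_self_iff).2 ha]

theorem zc_rf (U : Submodule ℝ V) {a : V} (ha : a ∈ U) (x : V) : zc U (rf a x) = zc U x := by
  rw [zc, sp_rf U ha, rf, rf, inner_sp U ha, zc]
  abel

theorem continuous_zc (U : Submodule ℝ V) : Continuous (zc U) := by
  unfold zc
  fun_prop

/-- The layer of the points with the same `z` and the same `|u|`. -/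
def layer (U : Submodule ℝ V) (K : Set V) (y : V) : Set V :=
  {v | v ∈ K ∧ (zc U v = zc U y ∧ ‖U.starProjection v‖ = ‖U.starProjection y‖)}

theorem layer_compact (U : Submodule ℝ V) {K : Set V} (hK : IsCompact K) (y : V) :
    IsCompact (layer U K y) := by
  refine hK.inter_right (IsClosed.inter ?_ ?_)
  · exact isClosed_eq (continuous_zc U) continuous_const
  · exact isClosed_eq (by fun_prop) continuous_const

theorem layer_inv {k : ℕ} (b : Fin k → V) (hb : ∀ i, ‖b i‖ = 1) {K : Set V}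
    (hinv : ∀ i, ∀ v ∈ K, rf (b i) v ∈ K) (y : V) (i : Fin k) {v : V}
    (hv : v ∈ layer (Submodule.span ℝ (Set.range b)) K y) :
    rf (b i) v ∈ layer (Submodule.span ℝ (Set.range b)) K y := by
  have hbi : b i ∈ Submodule.span ℝ (Set.range b) := Submodule.subset_span ⟨i, rfl⟩
  refine ⟨hinv i v hv.1, ?_, ?_⟩
  · rw [zc_rf _ hbi, hv.2.1]
  · rw [sp_rf _ hbi, norm_rf (hb i), hv.2.2]

section
variable {k : ℕ} (b : Fin k → V) (hb : ∀ i, ‖b i‖ = 1) {K : Set V} (hK : IsCompact K)
  (hinv : ∀ i, ∀ v ∈ K, rf (b i) v ∈ K) {D : ℝ} (hD0 : 0 < D)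
  (hD : ∀ x ∈ K, ∀ y ∈ K, dist x y ≤ D)

include hb hK hinv hD

theorem ineq_one {x y : V} (hx : x ∈ K) (hy : y ∈ K) :
    ‖(Submodule.span ℝ (Set.range b)).starProjection x‖ ^ 2
      + ‖(Submodule.span ℝ (Set.range b)).starProjection y‖ ^ 2
      + ‖zc (Submodule.span ℝ (Set.range b)) x - zc (Submodule.span ℝ (Set.range b)) y‖ ^ 2
      ≤ D ^ 2 := by
  set U := Submodule.span ℝ (Set.range b) with hU
  obtain ⟨v, hv, hv0⟩ := exists_nonpos b hb (layer_compact U hK y) ⟨y, hy, rfl, rfl⟩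
    (fun i v hv => layer_inv b hb hinv y i hv) (sp_mem U x)
  have h1 := norm_sq_split_sub U x v
  rw [hv.2.1, hv.2.2, inner_sp U (sp_mem U x)] at h1
  have h2 : ‖x - v‖ ≤ D := by rw [← dist_eq_norm]; exact hD x hx v hv.1
  have h3 : ‖x - v‖ ^ 2 ≤ D ^ 2 := pow_le_pow_left₀ (norm_nonneg _) h2 2
  linarith

include hD0 in
theorem ineq_two {x : V} (hx : x ∈ K) :
    2 * ‖(Submodule.span ℝ (Set.range b)).starProjection x‖ ^ 2 < D ^ 2 := by
  set U := Submodule.span ℝ (Set.range b) with hU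
  by_contra hcon
  push Not at hcon
  set r : ℝ := ‖U.starProjection x‖ with hr
  have hr0 : 0 < r := by
    have h1 : 0 < r ^ 2 := by
      have : 0 < D ^ 2 := by positivity
      linarith
    exact lt_of_le_of_ne (norm_nonneg _) (fun h => by rw [← h] at h1; norm_num at h1)
  have hpair : ∀ v ∈ layer U K x, ∀ w ∈ layer U K x,
      ‖v - w‖ ^ 2 = 2 * r ^ 2 - 2 * ⟪U.starProjection v, U.starProjection w⟫ := by
    intro v hv w hw
    rw [norm_sq_split_sub U v w, hv.2.1, hw.2.1, hv.2.2, hw.2.2, sub_self, norm_zero]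
    ring
  have hnn : ∀ v ∈ layer U K x, ∀ w ∈ layer U K x,
      0 ≤ ⟪U.starProjection v, U.starProjection w⟫ := by
    intro v hv w hw
    have h2 : ‖v - w‖ ≤ D := by rw [← dist_eq_norm]; exact hD v hv.1 w hw.1
    have h3 : ‖v - w‖ ^ 2 ≤ D ^ 2 := pow_le_pow_left₀ (norm_nonneg _) h2 2
    rw [hpair v hv w hw] at h3
    linarith
  obtain ⟨t, htM, htf, htc⟩ := (layer_compact U hK x).finite_cover_balls hr0
  set ρ : V := ∑ v ∈ htf.toFinset, U.starProjection v with hρ
  have hρU : ρ ∈ U := Submodule.sum_mem _ fun v _ => sp_mem U v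
  obtain ⟨w, hw, hw0⟩ := exists_nonpos b hb (layer_compact U hK x) ⟨x, hx, rfl, rfl⟩
    (fun i v hv => layer_inv b hb hinv x i hv) hρU
  rw [← inner_sp U hρU, hρ, sum_inner] at hw0
  obtain ⟨v, hv, hvw⟩ := mem_iUnion₂.1 (htc hw)
  have h4 : 0 < ⟪U.starProjection v, U.starProjection w⟫ := by
    rw [mem_ball, dist_comm, dist_eq_norm] at hvw
    have h5 : ‖v - w‖ ^ 2 < r ^ 2 := pow_lt_pow_left₀ hvw (norm_nonneg _) (by norm_num)
    rw [hpair v (htM hv) w hw] at h5
    nlinarith
  have h6 : 0 < ∑ v ∈ htf.toFinset, ⟪U.starProjection v, U.starProjection w⟫ :=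
    Finset.sum_pos' (fun i hi => hnn i (htM (htf.mem_toFinset.1 hi)) w hw)
      ⟨v, htf.mem_toFinset.2 hv, h4⟩
  linarith

end

end Vale.Agent.P052.H768
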