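import Vale.Agent.P052.H768.Core

/-!
Borsuk's partition problem, mirror symmetric sets: the irreducible blocks of the mirror system.
-/

namespace Vale.Agent.P052.H768

open Metric Set
open scoped RealInnerProductSpace

variable {V : Type*} [NormedAddCommGroup V] [InnerProductSpace ℝ V] [FiniteDimensional ℝ V]

/-- The map `κ` gives the irreducible blocks of the family `a`: vectors in different blocks are
orthogonal, and a part of the family that is orthogonal to the rest is a union of blocks. -/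
def IsBlocks {k : ℕ} {T : Type*} (a : Fin k → V) (κ : Fin k → T) : Prop :=
  (∀ i j, κ i ≠ κ j → ⟪a i, a j⟫ = 0) ∧
  ∀ J : Set (Fin k), (∀ i ∈ J, ∀ j ∉ J, ⟪a i, a j⟫ = 0) → ∀ i ∈ J, ∀ j, κ j = κ i → j ∈ J

/-- The span of the block `s`. -/
def blk {k : ℕ} {T : Type*} (a : Fin k → V) (κ : Fin k → T) (s : T) : Submodule ℝ V :=
  Submodule.span ℝ (a '' {i | κ i = s})

omit [FiniteDimensional ℝ V] in
theorem mem_blk {k : ℕ} {T : Type*} (a : Fin k → V) (κ : Fin k → T) {s : T} {i : Fin k}
    (h : κ i = s) : a i ∈ blk a κ s := Submodule.subset_span ⟨i, h, rfl⟩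

theorem blk_eq_zero {k : ℕ} {T : Type*} (a : Fin k → V) (κ : Fin k → T) (s : T) {x : V}
    (h : ∀ i, κ i = s → ⟪a i, x⟫ = 0) : (blk a κ s).starProjection x = 0 := by
  set u := (blk a κ s).starProjection x with hu
  have h1 : ∀ e ∈ blk a κ s, ⟪e, u⟫ = 0 := by
    intro e he
    rw [hu, inner_sp _ he]
    unfold blk at he
    induction he using Submodule.span_induction with
    | mem e he =>
      obtain ⟨i, hi, rfl⟩ := he
      exact h i hi
    | zero => exact inner_zero_left _
    | add e f _ _ h1 h2 => rw [inner_add_left, h1, h2, add_zero]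
    | smul r e _ h1 => rw [real_inner_smul_left, h1, mul_zero]
  exact inner_self_eq_zero.1 (h1 u (sp_mem _ x))

/-- A layer with fixed block norms. -/
def bl {k : ℕ} {T : Type*} (a : Fin k → V) (κ : Fin k → T) (K : Set V) (y : V) : Set V :=
  {v | v ∈ layer (Submodule.span ℝ (Set.range a)) K y ∧
    ∀ s, ‖(blk a κ s).starProjection v‖ = ‖(blk a κ s).starProjection y‖}

theorem bl_compact {k : ℕ} {T : Type*} (a : Fin k → V) (κ : Fin k → T) {K : Set V} (hK : IsCompact K)
    (y : V) : IsCompact (bl a κ K y) := by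
  refine (layer_compact _ hK y).inter_right ?_
  have : {v : V | ∀ s, ‖(blk a κ s).starProjection v‖ = ‖(blk a κ s).starProjection y‖}
      = ⋂ s, {v : V | ‖(blk a κ s).starProjection v‖ = ‖(blk a κ s).starProjection y‖} := by
    ext v; simp
  change IsClosed {v : V | ∀ s, ‖(blk a κ s).starProjection v‖ = ‖(blk a κ s).starProjection y‖}
  rw [this]
  exact isClosed_iInter fun s => isClosed_eq (by fun_prop) continuous_const

theorem bl_inv {k : ℕ} {T : Type*} (a : Fin k → V) (κ : Fin k → T)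
    (hκ : ∀ i j, κ i ≠ κ j → ⟪a i, a j⟫ = 0) (ha : ∀ i, ‖a i‖ = 1) {K : Set V}
    (hinv : ∀ i, ∀ v ∈ K, rf (a i) v ∈ K) (y : V) (i : Fin k) {v : V} (hv : v ∈ bl a κ K y) :
    rf (a i) v ∈ bl a κ K y := by
  refine ⟨layer_inv a ha hinv y i hv.1, fun s => ?_⟩
  by_cases h : κ i = s
  · rw [sp_rf _ (mem_blk a κ h), norm_rf (ha i), hv.2]
  · have h1 : a i ∈ (blk a κ s)ᗮ := by
      rw [Submodule.mem_orthogonal]
      intro e he
      unfold blk at he
      induction he using Submodule.span_induction with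
      | mem e he =>
        obtain ⟨j, hj, rfl⟩ := he
        exact hκ j i (fun h' => h (by rw [← h', hj]))
      | zero => exact inner_zero_left _
      | add e f _ _ h1 h2 => rw [inner_add_left, h1, h2, add_zero]
      | smul r e _ h1 => rw [real_inner_smul_left, h1, mul_zero]
    have h2 : (blk a κ s).starProjection (a i) = 0 :=
      Submodule.starProjection_apply_eq_zero_iff _ |>.2 h1
    rw [rf, map_sub, map_smul, h2, smul_zero, sub_zero, hv.2]

section
variable {k : ℕ} {T : Type*} (a : Fin k → V) (ha : ∀ i, ‖a i‖ = 1) (κ : Fin k → T)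
  (hκ : IsBlocks a κ) {K : Set V}
  (hinv : ∀ i, ∀ v ∈ K, rf (a i) v ∈ K)

include ha hκ hinv

/-- The span of the `u` components of a layer contains each block it meets. -/
theorem mem_span_bl {x : V} (hx : x ∈ K) {s : T}
    (hux : (blk a κ s).starProjection x ≠ 0) (i : Fin k) (hi : κ i = s) :
    a i ∈ Submodule.span ℝ ((fun v => (Submodule.span ℝ (Set.range a)).starProjection v) ''
      bl a κ K x) := by
  set U := Submodule.span ℝ (Set.range a) with hU
  set E := Submodule.span ℝ ((fun v => U.starProjection v) '' bl a κ K x) with hE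
  have haU : ∀ i, a i ∈ U := fun i => Submodule.subset_span ⟨i, rfl⟩
  have hdich : ∀ i, a i ∈ E ∨ ∀ e ∈ E, ⟪a i, e⟫ = 0 := by
    intro i
    by_cases h : ∃ v ∈ bl a κ K x, ⟪a i, U.starProjection v⟫ ≠ 0
    · left
      obtain ⟨v, hv, hne⟩ := h
      have h1 : U.starProjection v ∈ E := Submodule.subset_span ⟨v, hv, rfl⟩
      have h2 : U.starProjection (rf (a i) v) ∈ E :=
        Submodule.subset_span ⟨_, bl_inv a κ hκ.1 ha hinv x i hv, rfl⟩
      rw [sp_rf U (haU i)] at h2
      have h3 : (2 * ⟪a i, U.starProjection v⟫) • a i ∈ E := by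
        have := Submodule.sub_mem _ h1 h2
        rw [rf] at this
        simpa using this
      have h4 := Submodule.smul_mem E (2 * ⟪a i, U.starProjection v⟫)⁻¹ h3
      rwa [smul_smul, inv_mul_cancel₀ (mul_ne_zero two_ne_zero hne), one_smul] at h4
    · right
      push Not at h
      intro e he
      induction he using Submodule.span_induction with
      | mem e he =>
        obtain ⟨v, hv, rfl⟩ := he
        exact h v hv
      | zero => exact inner_zero_right _
      | add e f _ _ h1 h2 => rw [inner_add_right, h1, h2, add_zero]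
      | smul r e _ h1 => rw [inner_smul_right, h1, mul_zero]
  have hex : ∃ j, κ j = s ∧ ⟪a j, x⟫ ≠ 0 := by
    by_contra hcon
    push Not at hcon
    exact hux (blk_eq_zero a κ s hcon)
  obtain ⟨j, hj, hjx⟩ := hex
  have hjE : a j ∈ E := by
    refine (hdich j).resolve_right fun h => hjx ?_
    rw [← inner_sp U (haU j)]
    exact h _ (Submodule.subset_span ⟨x, ⟨⟨hx, rfl, rfl⟩, fun _ => rfl⟩, rfl⟩)
  have hJ := hκ.2 {i | a i ∈ E} (fun i hi j hj => by
    rw [real_inner_comm]
    exact (hdich j).resolve_left hj _ hi) j hjE i (by rw [hi, hj])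
  exact hJ

/-- The strict inequality for two points with nonzero components in a common block. -/
theorem ineq_blocks (hK : IsCompact K) {D : ℝ}
    (hD : ∀ x ∈ K, ∀ y ∈ K, dist x y ≤ D) {x y : V} (hx : x ∈ K) (hy : y ∈ K) {s : T}
    (hux : (blk a κ s).starProjection x ≠ 0)
    (huy : (blk a κ s).starProjection y ≠ 0) :
    ‖(Submodule.span ℝ (Set.range a)).starProjection x‖ ^ 2
      + ‖(Submodule.span ℝ (Set.range a)).starProjection y‖ ^ 2
      + ‖zc (Submodule.span ℝ (Set.range a)) x - zc (Submodule.span ℝ (Set.range a)) y‖ ^ 2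
      < D ^ 2 := by
  classical
  have hspan := fun j : {j // κ j = s} => mem_span_bl a ha κ hκ hinv hx hux j.1 j.2
  set U := Submodule.span ℝ (Set.range a) with hU
  by_contra hcon
  push Not at hcon
  have haU : ∀ i, a i ∈ U := fun i => Submodule.subset_span ⟨i, rfl⟩
  have hnn : ∀ v ∈ bl a κ K x, ∀ w ∈ bl a κ K y,
      0 ≤ ⟪U.starProjection v, U.starProjection w⟫ := by
    intro v hv w hw
    have h2 : ‖v - w‖ ≤ D := by rw [← dist_eq_norm]; exact hD v hv.1.1 w hw.1.1
    have h3 : ‖v - w‖ ^ 2 ≤ D ^ 2 := pow_le_pow_left₀ (norm_nonneg _) h2 2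
    rw [norm_sq_split_sub U v w, hv.1.2.1, hw.1.2.1, hv.1.2.2, hw.1.2.2] at h3
    linarith
  choose W hTsub hTspan using fun i => Submodule.mem_span_finite_of_mem_span (hspan i)
  have hTnn : ∀ i, ∀ e ∈ W i, e ∈ U ∧ ∀ w ∈ bl a κ K y, 0 ≤ ⟪e, U.starProjection w⟫ := by
    intro i e he
    obtain ⟨v, hv, rfl⟩ := hTsub i he
    exact ⟨sp_mem U v, fun w hw => hnn v hv w hw⟩
  set ρ : V := ∑ i, ∑ e ∈ W i, e with hρ
  have hρU : ρ ∈ U :=
    Submodule.sum_mem _ fun i _ => Submodule.sum_mem _ fun e he => (hTnn i e he).1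
  obtain ⟨w, hw, hw0⟩ := exists_nonpos a ha (bl_compact a κ hK y)
    ⟨y, ⟨hy, rfl, rfl⟩, fun _ => rfl⟩ (fun i v hv => bl_inv a κ hκ.1 ha hinv y i hv) hρU
  rw [← inner_sp U hρU, hρ, sum_inner] at hw0
  simp only [sum_inner] at hw0
  have h1 : ∀ i, 0 ≤ ∑ e ∈ W i, ⟪e, U.starProjection w⟫ := fun i =>
    Finset.sum_nonneg fun e he => (hTnn i e he).2 w hw
  have h2 : ∑ i, ∑ e ∈ W i, ⟪e, U.starProjection w⟫ = 0 :=
    le_antisymm hw0 (Finset.sum_nonneg fun i _ => h1 i)
  have h3 : ∀ i, ∀ e ∈ W i, ⟪e, U.starProjection w⟫ = 0 := by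
    intro i e he
    have h4 := (Finset.sum_eq_zero_iff_of_nonneg (fun i _ => h1 i)).1 h2 i (Finset.mem_univ i)
    exact (Finset.sum_eq_zero_iff_of_nonneg (fun e he => (hTnn i e he).2 w hw)).1 h4 e he
  have h5 : ∀ i, κ i = s → ⟪a i, w⟫ = 0 := by
    intro i hi
    have : ∀ e ∈ Submodule.span ℝ ((W ⟨i, hi⟩ : Finset V) : Set V),
        ⟪e, U.starProjection w⟫ = 0 := by
      intro e he
      induction he using Submodule.span_induction with
      | mem e he => exact h3 ⟨i, hi⟩ e he
      | zero => exact inner_zero_left _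
      | add e f _ _ h1 h2 => rw [inner_add_left, h1, h2, add_zero]
      | smul r e _ h1 => rw [real_inner_smul_left, h1, mul_zero]
    rw [← inner_sp U (haU i)]
    exact this _ (hTspan ⟨i, hi⟩)
  have h6 : (blk a κ s).starProjection w = 0 := blk_eq_zero a κ s h5
  have h7 := hw.2 s
  rw [h6, norm_zero] at h7
  exact huy (norm_eq_zero.1 h7.symm)

/-- Mirror systems with `r` irreducible blocks: one class for each block and the classes of the
common intersection of the mirrors. -/
theorem cover_blocks [Finite T] (hK : IsCompact K) {D : ℝ} (hD : ∀ x ∈ K, ∀ y ∈ K, dist x y ≤ D)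
    (b : Fin k → V) (hb : ∀ i, ‖b i‖ = 1) (hli : LinearIndependent ℝ b)
    (hob : ∀ i j, i ≠ j → ⟪b i, b j⟫ ≤ 0)
    (hspan : Submodule.span ℝ (Set.range b) = Submodule.span ℝ (Set.range a))
    (hinvb : ∀ i, ∀ v ∈ K, rf (b i) v ∈ K) {τ : Type*} [Finite τ] (P : τ → Set V)
    (hP : ∀ i, ∃ D' < D, ∀ x ∈ P i, ∀ y ∈ P i, dist x y ≤ D')
    (hPcov : ∀ x ∈ K, (∀ i, ⟪a i, x⟫ = 0) → ∃ j, x ∈ P j) :
    ∃ C : Fin k ⊕ (T ⊕ τ) → Set V, K ⊆ ⋃ i, C i ∧
      ∃ D' < D, ∀ i, ∀ x ∈ C i, ∀ y ∈ C i, dist x y ≤ D' := by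
  choose D' hD' hPD' using hP
  refine core_cover b hb hK hinvb hD
    (Sum.elim (fun s => {x | (blk a κ s).starProjection x ≠ 0})
      (fun j => thickening ((D - D' j) / 3) (P j))) ?_ ?_ ?_
  · rintro (s | j)
    · exact isOpen_ne_fun (by fun_prop) continuous_const
    · exact isOpen_thickening
  · intro x hx
    by_cases h : ∃ s, (blk a κ s).starProjection x ≠ 0
    · obtain ⟨s, hs⟩ := h
      exact ⟨Sum.inl s, hs⟩
    · push Not at h
      obtain ⟨j, hj⟩ := hPcov x hx.1 (fun i => by
        rw [← inner_sp _ (mem_blk a κ (rfl : κ i = κ i)), h, inner_zero_right])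
      refine ⟨Sum.inr j, self_subset_thickening ?_ _ hj⟩
      have := hD' j
      linarith
  · rintro (s | j) x hx y hy h1 h2 h3
    · have h4 := ineq_blocks a ha κ hκ hinv hK hD hx.1 hy.1 h1 h2
      have h5 := rem_acute b hli hob hx hy
      have h6 := norm_sq_split_sub (Submodule.span ℝ (Set.range a)) x y
      rw [hspan] at h5
      rw [dist_eq_norm] at h3
      rw [h3] at h6
      linarith
    · obtain ⟨p, hp, hp'⟩ := mem_thickening_iff.1 h1
      obtain ⟨q, hq, hq'⟩ := mem_thickening_iff.1 h2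
      have h4 := hPD' j p hp q hq
      have h5 : dist x y ≤ dist x p + dist p q + dist q y := dist_triangle4 x p q y
      rw [dist_comm q y] at h5
      have := hD' j
      linarith

end

end Vale.Agent.P052.H768
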