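import Vale.Agent.P052.H768.Blocks
import Vale.Agent.P052.H25.JungPair

/-!
Borsuk's partition problem, mirror symmetric sets: Jung's inequality block by block.
-/

namespace Vale.Agent.P052.H768

open Metric Set
open scoped RealInnerProductSpace

variable {V : Type*} [NormedAddCommGroup V] [InnerProductSpace ℝ V] [FiniteDimensional ℝ V]

section
variable {k : ℕ} {T : Type*} (a : Fin k → V) (κ : Fin k → T)

omit [FiniteDimensional ℝ V] in
/-- Different blocks are orthogonal. -/
theorem blk_orth (hκ : ∀ i j, κ i ≠ κ j → ⟪a i, a j⟫ = 0) {s t : T} (hst : s ≠ t) {e f : V}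
    (he : e ∈ blk a κ s) (hf : f ∈ blk a κ t) : ⟪e, f⟫ = 0 := by
  unfold blk at he hf
  induction he using Submodule.span_induction with
  | mem e he =>
    obtain ⟨i, hi, rfl⟩ := he
    induction hf using Submodule.span_induction with
    | mem f hf =>
      obtain ⟨j, hj, rfl⟩ := hf
      have hi' : κ i = s := hi
      have hj' : κ j = t := hj
      exact hκ i j (fun h => hst (by rw [← hi', ← hj', h]))
    | zero => exact inner_zero_right _
    | add e f _ _ h1 h2 => rw [inner_add_right, h1, h2, add_zero]
    | smul r e _ h1 => rw [inner_smul_right, h1, mul_zero]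
  | zero => exact inner_zero_left _
  | add e f _ _ h1 h2 => rw [inner_add_left, h1, h2, add_zero]
  | smul r e _ h1 => rw [real_inner_smul_left, h1, mul_zero]

/-- The other components do not change. -/
theorem sp_blk_of_ne (hκ : ∀ i j, κ i ≠ κ j → ⟪a i, a j⟫ = 0) {s t : T} (hst : s ≠ t) {e : V}
    (he : e ∈ blk a κ s) : (blk a κ t).starProjection e = 0 := by
  refine Submodule.starProjection_apply_eq_zero_iff _ |>.2 ?_
  rw [Submodule.mem_orthogonal]
  intro f hf
  exact blk_orth a κ hκ (Ne.symm hst) hf he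

/-- Pythagoras for the blocks. -/
theorem norm_sq_blocks [DecidableEq T] (hκ : ∀ i j, κ i ≠ κ j → ⟪a i, a j⟫ = 0) (x : V) :
    ‖(Submodule.span ℝ (Set.range a)).starProjection x‖ ^ 2
      = ∑ s ∈ Finset.univ.image κ, ‖(blk a κ s).starProjection x‖ ^ 2 := by
  set U := Submodule.span ℝ (Set.range a) with hU
  have hsub : ∀ s, blk a κ s ≤ U := fun s => Submodule.span_mono (by
    rintro _ ⟨i, -, rfl⟩
    exact ⟨i, rfl⟩)
  set w : V := ∑ s ∈ Finset.univ.image κ, (blk a κ s).starProjection x with hw
  have hwU : w ∈ U := Submodule.sum_mem _ fun s _ => hsub s (sp_mem _ x)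
  have horth : ∀ e ∈ U, ⟪e, x - w⟫ = 0 := by
    intro e he
    induction he using Submodule.span_induction with
    | mem e he =>
      obtain ⟨i, rfl⟩ := he
      rw [inner_sub_right, hw, inner_sum, Finset.sum_eq_single (κ i)]
      · rw [inner_sp _ (mem_blk a κ rfl), sub_self]
      · intro s _ hs
        exact blk_orth a κ hκ (Ne.symm hs) (mem_blk a κ rfl) (sp_mem _ x)
      · intro h
        exact absurd (Finset.mem_image_of_mem κ (Finset.mem_univ i)) h
    | zero => exact inner_zero_left _
    | add e f _ _ h1 h2 => rw [inner_add_left, h1, h2, add_zero]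
    | smul r e _ h1 => rw [real_inner_smul_left, h1, mul_zero]
  have hproj : U.starProjection x = w :=
    Submodule.eq_starProjection_of_mem_orthogonal hwU ((Submodule.mem_orthogonal U _).2 horth)
  rw [← real_inner_self_eq_norm_sq]
  nth_rw 1 [hproj]
  rw [hw, sum_inner]
  refine Finset.sum_congr rfl fun s _ => ?_
  rw [inner_sp U (hsub s (sp_mem _ x)), ← inner_sp (blk a κ s) (sp_mem _ x),
    real_inner_self_eq_norm_sq]

/-- **Jung's inequality block by block.** -/
theorem jung_blocks [DecidableEq T] (ha : ∀ i, ‖a i‖ = 1)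
    (hκ : ∀ i j, κ i ≠ κ j → ⟪a i, a j⟫ = 0) {K : Set V}
    (hK : IsCompact K) (hinv : ∀ i, ∀ v ∈ K, rf (a i) v ∈ K) {D : ℝ}
    (hD : ∀ x ∈ K, ∀ y ∈ K, dist x y ≤ D) {x : V} (hx : x ∈ K) :
    ∑ s ∈ Finset.univ.image κ, 2 * (‖(blk a κ s).starProjection x‖ ^ 2
      * (1 + 1 / ((Finset.univ.filter fun i => κ i = s).card : ℝ))) ≤ D ^ 2 := by
  have key : ∀ S : Finset T, S ⊆ Finset.univ.image κ → ∃ v ∈ K, ∃ v' ∈ K,
      (∀ t ∉ S, (blk a κ t).starProjection v = (blk a κ t).starProjection v' ∧
        ‖(blk a κ t).starProjection v‖ = ‖(blk a κ t).starProjection x‖) ∧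
      ∑ s ∈ S, 2 * (‖(blk a κ s).starProjection x‖ ^ 2
      * (1 + 1 / ((Finset.univ.filter fun i => κ i = s).card : ℝ))) ≤ ‖v - v'‖ ^ 2 := by
    intro S
    induction S using Finset.induction_on with
    | empty =>
      intro _
      exact ⟨x, hx, x, hx, fun t _ => ⟨rfl, rfl⟩, by simp⟩
    | insert s S hsS ih =>
      intro hS
      obtain ⟨v, hv, v', hv', hout, hsum⟩ := ih ((Finset.subset_insert s S).trans hS)
      have hsim := hS (Finset.mem_insert_self s S)
      obtain ⟨i0, -, hi0⟩ := Finset.mem_image.1 hsim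
      set B := blk a κ s with hB
      set e0 := B.starProjection v with he0
      have he0' : B.starProjection v' = e0 := (hout s hsS).1.symm
      set M : Set V := {e | e ∈ closedBall (0 : V) ‖B.starProjection x‖ ∧ (e ∈ (B : Set V) ∧
        ‖e‖ = ‖B.starProjection x‖ ∧ v - e0 + e ∈ K ∧ v' - e0 + e ∈ K)} with hMdef
      have hMc : IsCompact M := by
        refine (isCompact_closedBall (0 : V) _).inter_right ?_
        refine IsClosed.inter (Submodule.closed_of_finiteDimensional _) ?_
        refine IsClosed.inter (isClosed_eq (by fun_prop) continuous_const) ?_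
        exact IsClosed.inter (hK.isClosed.preimage (by fun_prop))
          (hK.isClosed.preimage (by fun_prop))
      have hMne : M.Nonempty := by
        refine ⟨e0, ?_, sp_mem B v, (hout s hsS).2, ?_, ?_⟩
        · rw [mem_closedBall_zero_iff]
          exact (hout s hsS).2.le
        · rw [sub_add_cancel]; exact hv
        · rw [sub_add_cancel]; exact hv'
      have hcoe : ((Finset.univ.filter fun i => κ i = s : Finset (Fin k)) : Set (Fin k))
          = {i | κ i = s} := by ext i; simp
      obtain ⟨e, he, e', he', hee⟩ := H25.jung_pair a (Finset.univ.filter fun i => κ i = s)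
        ⟨i0, by simpa using hi0⟩ (fun i _ => ha i) hMc hMne
        (by
          intro e he
          rw [hcoe]
          exact he.2.1) (fun e he => he.2.2.1)
        (by
          intro i hi e he
          have hi' : κ i = s := by simpa using hi
          have haB : a i ∈ B := mem_blk a κ hi'
          have hn : ‖rf (a i) e‖ = ‖B.starProjection x‖ := by rw [norm_rf (ha i)]; exact he.2.2.1
          have hz : ⟪a i, v - e0⟫ = 0 := by
            rw [he0]; exact inner_zc B haB v
          have hz' : ⟪a i, v' - e0⟫ = 0 := by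
            rw [← he0']; exact inner_zc B haB v'
          refine ⟨?_, ?_, hn, ?_, ?_⟩
          · rw [mem_closedBall_zero_iff]; exact hn.le
          · exact Submodule.sub_mem _ he.2.1 (Submodule.smul_mem _ _ haB)
          · have := hinv i _ he.2.2.2.1
            rw [rf, inner_add_right, hz, zero_add] at this
            rw [rf]
            convert this using 1
            abel
          · have := hinv i _ he.2.2.2.2
            rw [rf, inner_add_right, hz', zero_add] at this
            rw [rf]
            convert this using 1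
            abel)
      refine ⟨v - e0 + e, he.2.2.2.1, v' - e0 + e', he'.2.2.2.2, ?_, ?_⟩
      · intro t ht
        have hts : s ≠ t := fun h => ht (by rw [h]; exact Finset.mem_insert_self t S)
        have htS : t ∉ S := fun h => ht (Finset.mem_insert_of_mem h)
        have h0 : (blk a κ t).starProjection e0 = 0 := sp_blk_of_ne a κ hκ hts (sp_mem B v)
        have h1 : (blk a κ t).starProjection e = 0 := sp_blk_of_ne a κ hκ hts he.2.1
        have h1' : (blk a κ t).starProjection e' = 0 := sp_blk_of_ne a κ hκ hts he'.2.1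
        rw [map_add, map_sub, h0, h1, map_add, map_sub, h0, h1', sub_zero, add_zero, sub_zero,
          add_zero]
        exact hout t htS
      · rw [Finset.sum_insert hsS]
        have h2 : v - e0 + e - (v' - e0 + e') = (v - v') + (e - e') := by abel
        have h3 : ⟪v - v', e - e'⟫ = 0 := by
          have h4 : B.starProjection (v - v') = 0 := by rw [map_sub, he0', ← he0, sub_self]
          rw [real_inner_comm, ← inner_sp B (Submodule.sub_mem _ he.2.1 he'.2.1), h4,
            inner_zero_right]
        have h5 : ‖v - e0 + e - (v' - e0 + e')‖ ^ 2 = ‖v - v'‖ ^ 2 + ‖e - e'‖ ^ 2 := by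
          rw [h2, norm_add_sq_real, h3]; ring
        have h6 : ‖e - e'‖ ^ 2 = 2 * ‖B.starProjection x‖ ^ 2 - 2 * ⟪e, e'⟫ := by
          rw [norm_sub_sq_real, he.2.2.1, he'.2.2.1]; ring
        rw [h5, h6]
        have h7 : ‖B.starProjection x‖ ^ 2
            * (1 + 1 / ((Finset.univ.filter fun i => κ i = s).card : ℝ))
            = ‖B.starProjection x‖ ^ 2 + ‖B.starProjection x‖ ^ 2
              / ((Finset.univ.filter fun i => κ i = s).card : ℝ) := by ring
        rw [h7]
        rw [neg_div] at hee
        linarith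
  obtain ⟨v, hv, v', hv', -, h⟩ := key _ subset_rfl
  refine h.trans ?_
  have h2 : ‖v - v'‖ ≤ D := by rw [← dist_eq_norm]; exact hD v hv v' hv'
  exact pow_le_pow_left₀ (norm_nonneg _) h2 2

/-- The bound for the norm of `u` by the largest rank of a block that meets `x`. -/
theorem jung_rank [DecidableEq T] (ha : ∀ i, ‖a i‖ = 1)
    (hκ : ∀ i j, κ i ≠ κ j → ⟪a i, a j⟫ = 0) {K : Set V}
    (hK : IsCompact K) (hinv : ∀ i, ∀ v ∈ K, rf (a i) v ∈ K) {D : ℝ}
    (hD : ∀ x ∈ K, ∀ y ∈ K, dist x y ≤ D) {x : V} (hx : x ∈ K) (p : ℕ)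
    (hp : ∀ s, (blk a κ s).starProjection x ≠ 0 →
      (Finset.univ.filter fun i => κ i = s).card ≤ p) :
    D ^ 2 / (2 * ((p : ℝ) + 1)) ≤
      D ^ 2 / 2 - ‖(Submodule.span ℝ (Set.range a)).starProjection x‖ ^ 2 := by
  have h1 := jung_blocks a κ ha hκ hK hinv hD hx
  have h2 := norm_sq_blocks a κ hκ x
  have h3 : ∑ s ∈ Finset.univ.image κ, 2 * (((p : ℝ) + 1)
      * ‖(blk a κ s).starProjection x‖ ^ 2) ≤ ∑ s ∈ Finset.univ.image κ, (p : ℝ)
      * (2 * (‖(blk a κ s).starProjection x‖ ^ 2
      * (1 + 1 / ((Finset.univ.filter fun i => κ i = s).card : ℝ)))) := by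
    refine Finset.sum_le_sum fun s hs => ?_
    by_cases h0 : (blk a κ s).starProjection x = 0
    · rw [h0]; simp
    · have hc := hp s h0
      obtain ⟨i0, -, hi0⟩ := Finset.mem_image.1 hs
      have hc0 : 0 < (Finset.univ.filter fun i => κ i = s).card :=
        Finset.card_pos.2 ⟨i0, by simpa using hi0⟩
      have hc' : ((Finset.univ.filter fun i => κ i = s).card : ℝ) ≤ p := by exact_mod_cast hc
      have hc0' : (0 : ℝ) < (Finset.univ.filter fun i => κ i = s).card := by exact_mod_cast hc0
      have h4 : (1 : ℝ) ≤ p * (1 / ((Finset.univ.filter fun i => κ i = s).card : ℝ)) := by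
        rw [mul_one_div, le_div_iff₀ hc0', one_mul]
        exact hc'
      have h5 : 0 ≤ ‖(blk a κ s).starProjection x‖ ^ 2 := sq_nonneg _
      nlinarith [mul_le_mul_of_nonneg_left h4 h5]
  rw [← Finset.mul_sum, ← Finset.mul_sum, ← Finset.mul_sum, ← h2] at h3
  have h6 : (p : ℝ) * ∑ s ∈ Finset.univ.image κ, (2 * (‖(blk a κ s).starProjection x‖ ^ 2
      * (1 + 1 / ((Finset.univ.filter fun i => κ i = s).card : ℝ)))) ≤ p * D ^ 2 :=
    mul_le_mul_of_nonneg_left h1 (Nat.cast_nonneg p)
  have h7 := h3.trans h6
  rw [div_le_iff₀ (by positivity)]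
  nlinarith

end

end Vale.Agent.P052.H768
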