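import Mathlib.Analysis.InnerProductSpace.PiL2
import Mathlib.Analysis.InnerProductSpace.Dual
import Mathlib.LinearAlgebra.Matrix.ToLinearEquiv
import Mathlib.Topology.Order.Compact
import Mathlib.Topology.Instances.Matrix

/-!
Borsuk's partition problem, mirror symmetric sets: the geometry of the mirrors.
-/

namespace Vale.Agent.P052.H768

open Metric Set
open scoped RealInnerProductSpace

variable {V : Type*} [NormedAddCommGroup V] [InnerProductSpace ℝ V]

/-- Reflection in the hyperplane through the origin with unit normal `a`. -/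
noncomputable def rf (a x : V) : V := x - (2 * ⟪a, x⟫) • a

theorem inner_rf_right (a x y : V) : ⟪y, rf a x⟫ = ⟪y, x⟫ - 2 * ⟪a, x⟫ * ⟪y, a⟫ := by
  rw [rf, inner_sub_right, inner_smul_right]

theorem inner_rf_left (a x y : V) : ⟪rf a x, y⟫ = ⟪x, y⟫ - 2 * ⟪a, x⟫ * ⟪a, y⟫ := by
  rw [rf, inner_sub_left, real_inner_smul_left]

theorem inner_rf_comm (a x y : V) : ⟪rf a x, y⟫ = ⟪x, rf a y⟫ := by
  rw [inner_rf_left, inner_rf_right, real_inner_comm x a]
  ring

theorem rf_rf {a : V} (ha : ‖a‖ = 1) (x : V) : rf a (rf a x) = x := by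
  have h : ⟪a, a⟫ = (1 : ℝ) := by rw [real_inner_self_eq_norm_sq, ha]; norm_num
  have h2 : ⟪a, rf a x⟫ = -⟪a, x⟫ := by
    rw [inner_rf_right, h]; ring
  rw [rf, h2, rf]
  module

theorem norm_rf {a : V} (ha : ‖a‖ = 1) (x : V) : ‖rf a x‖ = ‖x‖ := by
  have h : ⟪rf a x, rf a x⟫ = ⟪x, x⟫ := by rw [inner_rf_comm, rf_rf ha]
  rw [real_inner_self_eq_norm_sq, real_inner_self_eq_norm_sq] at h
  exact (sq_eq_sq₀ (norm_nonneg _) (norm_nonneg _)).1 h

/-- The reflection with the reflected normal. -/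
theorem rf_conj {a : V} (ha : ‖a‖ = 1) (b x : V) : rf (rf a b) x = rf a (rf b (rf a x)) := by
  have h : ⟪rf a b, x⟫ = ⟪b, rf a x⟫ := inner_rf_comm a b x
  have h1 : ∀ (y : V) (r : ℝ), rf a (y - r • b) = rf a y - r • rf a b := by
    intro y r
    simp only [rf, inner_sub_right, inner_smul_right]
    module
  rw [show rf (rf a b) x = x - (2 * ⟪rf a b, x⟫) • rf a b from rfl, h,
    show rf b (rf a x) = rf a x - (2 * ⟪b, rf a x⟫) • b from rfl, h1, rf_rf ha]

theorem continuous_rf (a : V) : Continuous (rf a) := by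
  unfold rf
  fun_prop

/-- Independent obtuse vectors have an acute dual cone. -/
theorem acute {k : ℕ} (b : Fin k → V) (hli : LinearIndependent ℝ b)
    (hob : ∀ i j, i ≠ j → ⟪b i, b j⟫ ≤ 0) {u v : V}
    (hu : u ∈ Submodule.span ℝ (Set.range b)) (hu' : ∀ i, ⟪b i, u⟫ ≤ 0)
    (hv' : ∀ i, ⟪b i, v⟫ ≤ 0) : 0 ≤ ⟪u, v⟫ := by
  obtain ⟨c, hc⟩ := (Submodule.mem_span_range_iff_exists_fun ℝ).1 hu
  set w : V := ∑ i, (max (c i) 0) • b i with hw
  set w' : V := ∑ i, (min (c i) 0) • b i with hw'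
  have hsum : u = w + w' := by
    rw [hw, hw', ← Finset.sum_add_distrib, ← hc]
    refine Finset.sum_congr rfl fun i _ => ?_
    rw [← add_smul, max_add_min, add_zero]
  have h1 : ⟪w, u⟫ ≤ 0 := by
    rw [hw, sum_inner]
    refine Finset.sum_nonpos fun i _ => ?_
    rw [real_inner_smul_left]
    exact mul_nonpos_of_nonneg_of_nonpos (le_max_right _ _) (hu' i)
  have h2 : 0 ≤ ⟪w, w'⟫ := by
    rw [hw, sum_inner]
    refine Finset.sum_nonneg fun i _ => ?_
    rw [hw', inner_sum]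
    refine Finset.sum_nonneg fun j _ => ?_
    rw [real_inner_smul_left, inner_smul_right]
    by_cases hij : i = j
    · subst hij
      rcases le_total (c i) 0 with h | h
      · rw [max_eq_right h]; simp
      · rw [min_eq_right h]; simp
    · have hq := hob i j hij
      have hp : 0 ≤ max (c i) 0 := le_max_right _ _
      have hn : min (c j) 0 ≤ 0 := min_le_right _ _
      exact mul_nonneg hp (mul_nonneg_of_nonpos_of_nonpos hn hq)
  have h3 : ⟪w, w⟫ ≤ 0 := by
    have : ⟪w, u⟫ = ⟪w, w⟫ + ⟪w, w'⟫ := by rw [hsum, inner_add_right]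
    linarith
  have h4 : w = 0 := by
    rw [real_inner_self_eq_norm_sq] at h3
    have h3' : ‖w‖ ^ 2 = 0 := le_antisymm h3 (sq_nonneg _)
    exact norm_eq_zero.1 (pow_eq_zero_iff (by norm_num) |>.1 h3')
  have h5 : ∀ i, max (c i) 0 = 0 := Fintype.linearIndependent_iff.1 hli _ h4
  rw [← hc, sum_inner]
  refine Finset.sum_nonneg fun i _ => ?_
  rw [real_inner_smul_left]
  have h6 : c i ≤ 0 := by
    have := le_max_left (c i) 0
    rw [h5 i] at this
    exact this
  exact mul_nonneg_of_nonpos_of_nonpos h6 (hv' i)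

theorem eq_zero_of_mem_span {k : ℕ} (b : Fin k → V) {u : V}
    (hu : u ∈ Submodule.span ℝ (Set.range b)) (h : ∀ i, ⟪b i, u⟫ = 0) : u = 0 := by
  obtain ⟨c, hc⟩ := (Submodule.mem_span_range_iff_exists_fun ℝ).1 hu
  have h1 : ⟪u, u⟫ = (0 : ℝ) := by
    nth_rw 1 [← hc]
    rw [sum_inner]
    refine Finset.sum_eq_zero fun i _ => ?_
    rw [real_inner_smul_left, h i, mul_zero]
  exact inner_self_eq_zero.1 h1

variable [FiniteDimensional ℝ V]

/-- Prescribed inner products with independent vectors. -/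
theorem exists_inner_eq {k : ℕ} (b : Fin k → V) (hli : LinearIndependent ℝ b)
    (c : Fin k → ℝ) : ∃ t : V, ∀ l, ⟪b l, t⟫ = c l := by
  have : CompleteSpace V := FiniteDimensional.complete ℝ V
  set B := Module.Basis.span hli with hB
  obtain ⟨g, hg⟩ := LinearMap.exists_extend (B.constr ℝ c)
  refine ⟨(InnerProductSpace.toDual ℝ V).symm (LinearMap.toContinuousLinearMap g), fun l => ?_⟩
  rw [real_inner_comm, InnerProductSpace.toDual_symm_apply]
  have h1 : g (B l : V) = B.constr ℝ c (B l) := by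
    rw [← hg]; rfl
  rw [Module.Basis.constr_basis] at h1
  have h2 : ((B l : _) : V) = b l := by
    rw [hB, Module.Basis.span_apply]
  rw [h2] at h1
  simpa using h1

/-- A compact mirror symmetric set is not contained in an open half space. -/
theorem exists_nonpos {k : ℕ} (b : Fin k → V) (hb : ∀ i, ‖b i‖ = 1) {M : Set V}
    (hM : IsCompact M) (hne : M.Nonempty) (hinv : ∀ i, ∀ v ∈ M, rf (b i) v ∈ M) {ρ : V}
    (hρ : ρ ∈ Submodule.span ℝ (Set.range b)) : ∃ v ∈ M, ⟪ρ, v⟫ ≤ 0 := by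
  by_contra hcon
  push Not at hcon
  obtain ⟨v0, hv0, hmin⟩ := hM.exists_isMinOn hne
    ((by fun_prop : Continuous fun v : V => ⟪ρ, v⟫).continuousOn)
  set ε : ℝ := ⟪ρ, v0⟫ with hε
  have hε0 : 0 < ε := hcon v0 hv0
  set A : Set V := {r | r ∈ closedBall (0 : V) ‖ρ‖ ∧
    (r ∈ (Submodule.span ℝ (Set.range b) : Set V) ∧ ∀ v ∈ M, ε ≤ ⟪r, v⟫)} with hA
  have hAc : IsCompact A := by
    refine (isCompact_closedBall (0 : V) ‖ρ‖).inter_right ?_
    refine IsClosed.inter (Submodule.closed_of_finiteDimensional _) ?_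
    have : {r : V | ∀ v ∈ M, ε ≤ ⟪r, v⟫} = ⋂ v ∈ M, {r : V | ε ≤ ⟪r, v⟫} := by
      ext r; simp
    change IsClosed {r : V | ∀ v ∈ M, ε ≤ ⟪r, v⟫}
    rw [this]
    exact isClosed_biInter fun v _ => isClosed_le (by fun_prop) (by fun_prop)
  have hρA : ρ ∈ A := ⟨by simp, hρ, fun v hv => hmin hv⟩
  obtain ⟨r0, hr0, hr0min⟩ := hAc.exists_isMinOn ⟨ρ, hρA⟩
    (continuous_norm.continuousOn : ContinuousOn (fun r : V => ‖r‖) A)
  have hkey : ∀ i, ⟪b i, r0⟫ = 0 := by
    intro i
    have hbb : ⟪b i, b i⟫ = (1 : ℝ) := by rw [real_inner_self_eq_norm_sq, hb i]; norm_num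
    set r1 : V := r0 - ⟪b i, r0⟫ • b i with hr1
    have hn : ‖r1‖ ^ 2 = ‖r0‖ ^ 2 - ⟪b i, r0⟫ ^ 2 := by
      rw [hr1, ← real_inner_self_eq_norm_sq, ← real_inner_self_eq_norm_sq]
      simp only [inner_sub_left, inner_sub_right, real_inner_smul_left, inner_smul_right]
      rw [hbb, real_inner_comm (b i) r0]
      ring
    have hle : ‖r1‖ ≤ ‖r0‖ := by
      refine abs_le_of_sq_le_sq' ?_ (norm_nonneg _) |>.2
      nlinarith [sq_nonneg ⟪b i, r0⟫]
    have hr1A : r1 ∈ A := by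
      refine ⟨?_, ?_, ?_⟩
      · have := hr0.1
        rw [mem_closedBall_zero_iff] at this ⊢
        linarith
      · exact Submodule.sub_mem _ hr0.2.1
          (Submodule.smul_mem _ _ (Submodule.subset_span ⟨i, rfl⟩))
      · intro v hv
        have h1 := hr0.2.2 v hv
        have h2 := hr0.2.2 _ (hinv i v hv)
        rw [inner_rf_right] at h2
        rw [hr1, inner_sub_left, real_inner_smul_left, real_inner_comm r0 (b i)]
        linarith
    have h3 : ‖r0‖ ≤ ‖r1‖ := hr0min hr1A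
    have h4 : ‖r0‖ = ‖r1‖ := le_antisymm h3 hle
    rw [← h4] at hn
    have h5 : ⟪b i, r0⟫ ^ 2 = 0 := by linarith
    exact pow_eq_zero_iff (by norm_num) |>.1 h5
  have hr00 : r0 = 0 := eq_zero_of_mem_span b hr0.2.1 hkey
  have h6 := hr0.2.2 v0 hv0
  rw [hr00, inner_zero_left] at h6
  linarith

end Vale.Agent.P052.H768
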