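import Vale.Agent.P052.H768.Mirror

/-!
Borsuk's partition problem, mirror symmetric sets: a closed mirror system contains an obtuse basis.
-/

namespace Vale.Agent.P052.H768

open Metric Set
open scoped RealInnerProductSpace

variable {V : Type*} [NormedAddCommGroup V] [InnerProductSpace ℝ V] [FiniteDimensional ℝ V]

/-- The product of the positive parts of the inner products. -/
noncomputable def pp {k : ℕ} (b : Fin k → V) (t : V) : ℝ := ∏ l, max 0 ⟪b l, t⟫

/-- Its maximum over the unit ball. -/
noncomputable def pmax {k : ℕ} (b : Fin k → V) : ℝ := sSup (pp b '' closedBall (0 : V) 1)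

omit [FiniteDimensional ℝ V] in
theorem continuous_pp {k : ℕ} :
    Continuous fun q : (Fin k → V) × V => pp q.1 q.2 := by
  unfold pp
  fun_prop

theorem continuous_pmax {k : ℕ} : Continuous (pmax : (Fin k → V) → ℝ) :=
  (isCompact_closedBall (0 : V) 1).continuous_sSup continuous_pp

theorem pp_le_pmax {k : ℕ} (b : Fin k → V) {t : V} (ht : t ∈ closedBall (0 : V) 1) :
    pp b t ≤ pmax b := by
  have hc : Continuous (pp b) := continuous_pp.comp (by fun_prop : Continuous fun t => (b, t))
  exact le_csSup ((isCompact_closedBall (0 : V) 1).image hc).bddAbove ⟨t, ht, rfl⟩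

theorem exists_pmax {k : ℕ} (b : Fin k → V) : ∃ t ∈ closedBall (0 : V) 1, pmax b = pp b t := by
  have hc : Continuous (pp b) := continuous_pp.comp (by fun_prop : Continuous fun t => (b, t))
  have := ((isCompact_closedBall (0 : V) 1).image hc).sSup_mem
    ⟨_, 0, by simp, rfl⟩
  obtain ⟨t, ht, h⟩ := this
  exact ⟨t, ht, h.symm⟩

theorem pmax_pos {k : ℕ} (b : Fin k → V) (hli : LinearIndependent ℝ b) : 0 < pmax b := by
  obtain ⟨t, ht⟩ := exists_inner_eq b hli (fun _ => 1)
  have hn : 0 < ‖t‖ + 1 := by positivity
  have h1 : (‖t‖ + 1)⁻¹ • t ∈ closedBall (0 : V) 1 := by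
    rw [mem_closedBall_zero_iff, norm_smul, norm_inv, Real.norm_of_nonneg hn.le,
      inv_mul_le_iff₀ hn]
    linarith
  refine lt_of_lt_of_le ?_ (pp_le_pmax b h1)
  refine Finset.prod_pos fun l _ => ?_
  rw [inner_smul_right, ht l, mul_one]
  exact lt_max_of_lt_right (by positivity)

/-- A closed system of unit normals, stable under its reflections, that contains `k` independent
vectors contains `k` independent pairwise non-acute vectors with the same span. -/
theorem exists_obtuse {k : ℕ} (S : Set V) (hScl : IsClosed S) (hS1 : ∀ a ∈ S, ‖a‖ = 1)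
    (hSr : ∀ a ∈ S, ∀ b ∈ S, rf a b ∈ S) (a : Fin k → V) (ha : ∀ i, a i ∈ S)
    (hli : LinearIndependent ℝ a) :
    ∃ b : Fin k → V, (∀ i, b i ∈ S) ∧ LinearIndependent ℝ b ∧
      Submodule.span ℝ (Set.range b) = Submodule.span ℝ (Set.range a) ∧
      ∀ i j, i ≠ j → ⟪b i, b j⟫ ≤ 0 := by
  set U := Submodule.span ℝ (Set.range a) with hU
  choose φ hφ using fun i : Fin k => exists_inner_eq a hli (fun l => if l = i then 1 else 0)
  set G : (Fin k → V) → Matrix (Fin k) (Fin k) ℝ := fun b i j => ⟪φ i, b j⟫ with hG
  have hGc : Continuous fun b => (G b).det := by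
    apply Continuous.matrix_det
    refine continuous_matrix fun i j => ?_
    simp only [hG]
    fun_prop
  have hGli : ∀ b, (G b).det = 1 → LinearIndependent ℝ b := by
    intro b hb
    rw [Fintype.linearIndependent_iff]
    intro c hc
    have h1 : (G b).mulVec c = 0 := by
      ext i
      have : ⟪φ i, ∑ j, c j • b j⟫ = (0 : ℝ) := by rw [hc, inner_zero_right]
      rw [inner_sum] at this
      simp only [inner_smul_right] at this
      simp only [Matrix.mulVec, dotProduct, hG, Pi.zero_apply]
      rw [← this]
      exact Finset.sum_congr rfl fun j _ => mul_comm _ _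
    have h2 := Matrix.eq_zero_of_mulVec_eq_zero (by rw [hb]; norm_num) h1
    intro i
    rw [h2]; rfl
  set T : Set (Fin k → V) := (Set.univ.pi fun _ => S ∩ (U : Set V)) ∩ {b | (G b).det = 1} with hT
  have hSc : IsCompact (S ∩ (U : Set V)) := by
    refine Metric.isCompact_of_isClosed_isBounded
      (hScl.inter (Submodule.closed_of_finiteDimensional _)) ?_
    refine (isBounded_closedBall (x := (0 : V)) (r := 1)).subset fun x hx => ?_
    rw [mem_closedBall_zero_iff, hS1 x hx.1]
  have hTc : IsCompact T :=
    (isCompact_univ_pi fun _ => hSc).inter_right (isClosed_eq hGc continuous_const)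
  have haT : a ∈ T := by
    refine ⟨fun i _ => ⟨ha i, Submodule.subset_span ⟨i, rfl⟩⟩, ?_⟩
    have h1 : G a = 1 := by
      ext i j
      simp only [hG, Matrix.one_apply]
      rw [real_inner_comm, hφ i j]
      by_cases h : i = j
      · rw [if_pos h, if_pos h.symm]
      · rw [if_neg h, if_neg (Ne.symm h)]
    change (G a).det = 1
    rw [h1, Matrix.det_one]
  obtain ⟨b, hbT, hbmin⟩ := hTc.exists_isMinOn ⟨a, haT⟩ continuous_pmax.continuousOn
  have hbS : ∀ i, b i ∈ S := fun i => (hbT.1 i (mem_univ i)).1
  have hbU : ∀ i, b i ∈ U := fun i => (hbT.1 i (mem_univ i)).2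
  have hbli : LinearIndependent ℝ b := hGli b hbT.2
  refine ⟨b, hbS, hbli, ?_, ?_⟩
  · refine Submodule.eq_of_le_of_finrank_eq ?_ ?_
    · rw [Submodule.span_le]
      rintro _ ⟨i, rfl⟩
      exact hbU i
    · rw [finrank_span_eq_card hbli, hU, finrank_span_eq_card hli]
  · intro i j hij
    by_contra hcon
    push Not at hcon
    set c : ℝ := ⟪b i, b j⟫ with hc
    set b' : Fin k → V := Function.update b j (rf (b i) (b j)) with hb'
    have hb'j : b' j = rf (b i) (b j) := by rw [hb']; simp
    have hb'l : ∀ l, l ≠ j → b' l = b l := by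
      intro l hl
      rw [hb', Function.update_of_ne hl]
    have hb'T : b' ∈ T := by
      refine ⟨fun l _ => ?_, ?_⟩
      · by_cases hl : l = j
        · subst hl
          rw [hb'j]
          refine ⟨hSr _ (hbS i) _ (hbS l), ?_⟩
          exact Submodule.sub_mem _ (hbU l) (Submodule.smul_mem _ _ (hbU i))
        · rw [hb'l l hl]
          exact ⟨hbS l, hbU l⟩
      · change (G b').det = 1
        have h1 : G b' = (G b).updateCol j (fun m => G b m j + (-(2 * c)) • G b m i) := by
          ext m l
          by_cases hl : l = j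
          · subst hl
            rw [Matrix.updateCol_self]
            simp only [hG, hb'j, rf, inner_sub_right, inner_smul_right, smul_eq_mul]
            ring
          · rw [Matrix.updateCol_ne hl]
            simp only [hG, hb'l l hl]
        rw [h1, Matrix.det_updateCol_add_smul_self _ (Ne.symm hij)]
        exact hbT.2
    have hmin : pmax b ≤ pmax b' := hbmin hb'T
    have hpos : 0 < pmax b := pmax_pos b hbli
    obtain ⟨t, ht, hpt⟩ := exists_pmax b'
    have hpt0 : 0 < pp b' t := by rw [← hpt]; linarith
    have hfac : ∀ l, 0 < ⟪b' l, t⟫ := by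
      intro l
      by_contra hl
      push Not at hl
      have : pp b' t = 0 := by
        unfold pp
        exact Finset.prod_eq_zero (Finset.mem_univ l) (max_eq_left hl)
      linarith
    have hi : b' i = b i := hb'l i hij
    have hj : ⟪b' j, t⟫ = ⟪b j, t⟫ - 2 * c * ⟪b i, t⟫ := by
      rw [hb'j, inner_rf_left]
    have hlt : pp b' t < pp b t := by
      unfold pp
      refine Finset.prod_lt_prod (fun l _ => lt_max_of_lt_right (hfac l)) (fun l _ => ?_)
        ⟨j, Finset.mem_univ j, ?_⟩
      · by_cases hl : l = j
        · subst hl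
          refine max_le_max le_rfl ?_
          have h1 := hfac i
          rw [hi] at h1
          rw [hj]
          nlinarith
        · rw [hb'l l hl]
      · have h1 := hfac i
        rw [hi] at h1
        have h2 : ⟪b' j, t⟫ < ⟪b j, t⟫ := by
          rw [hj]
          nlinarith
        rw [max_eq_right (hfac j).le]
        exact lt_max_of_lt_right h2
    have := pp_le_pmax b ht
    linarith

end Vale.Agent.P052.H768
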