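import Vale.Agent.P052.H768.Main
import Vale.Agent.P052.H25.Two

/-!
Borsuk's partition problem, sets with one mirror and three free dimensions.
-/

namespace Vale.Agent.P052.H768

open Metric Set H25
open scoped RealInnerProductSpace

/-- Coordinates of the free part, three free dimensions. -/
theorem exists_coord_three {V : Type*} [NormedAddCommGroup V] [InnerProductSpace ℝ V]
    [FiniteDimensional ℝ V] (U : Submodule ℝ V) (h3 : Module.finrank ℝ Uᗮ = 3) :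
    ∃ q₁ q₂ q₃ : V → ℝ, Continuous q₁ ∧ Continuous q₂ ∧ Continuous q₃ ∧
      ∀ x y, ‖zc U x - zc U y‖ ^ 2
        = (q₁ x - q₁ y) ^ 2 + (q₂ x - q₂ y) ^ 2 + (q₃ x - q₃ y) ^ 2 := by
  have w : OrthonormalBasis (Fin 3) ℝ Uᗮ := (stdOrthonormalBasis ℝ Uᗮ).reindex (finCongr h3)
  refine ⟨fun x => ⟪((w 0 : Uᗮ) : V), x⟫, fun x => ⟪((w 1 : Uᗮ) : V), x⟫,
    fun x => ⟪((w 2 : Uᗮ) : V), x⟫, by fun_prop, by fun_prop, by fun_prop, fun x y => ?_⟩
  have key : ∀ (i : Fin 3) (v : V), ⟪((w i : Uᗮ) : V), v⟫ = ⟪((w i : Uᗮ) : V), zc U v⟫ := by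
    intro i v
    nth_rw 1 [← sp_add_zc U v]
    rw [inner_add_right, real_inner_comm,
      (Submodule.mem_orthogonal U _).1 (w i).2 _ (sp_mem U v), zero_add]
  rw [← zc_sub]
  have h3 : ‖(⟨zc U (x - y), zc_mem U (x - y)⟩ : Uᗮ)‖ ^ 2
      = ∑ i, ‖⟪w i, (⟨zc U (x - y), zc_mem U (x - y)⟩ : Uᗮ)⟫‖ ^ 2 :=
    (w.sum_sq_norm_inner_right _).symm
  rw [Fin.sum_univ_three] at h3
  have h4 : ‖(⟨zc U (x - y), zc_mem U (x - y)⟩ : Uᗮ)‖ = ‖zc U (x - y)‖ := rfl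
  have h5 : ∀ i, ⟪w i, (⟨zc U (x - y), zc_mem U (x - y)⟩ : Uᗮ)⟫
      = ⟪((w i : Uᗮ) : V), x⟫ - ⟪((w i : Uᗮ) : V), y⟫ := by
    intro i
    rw [← inner_sub_right, key i (x - y)]
    rfl
  rw [h4, h5, h5, h5, Real.norm_eq_abs, Real.norm_eq_abs, Real.norm_eq_abs, sq_abs, sq_abs,
    sq_abs] at h3
  exact h3

section
variable {d : ℕ} {X : Set (EuclideanSpace ℝ (Fin d))}

/-- One mirror: from four classes of the remainder to the cover of `X`. -/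
theorem one_core (hX : Bornology.IsBounded X) (hD : 0 < Metric.diam X)
    (α : Fin 1 → EuclideanSpace ℝ (Fin d)) (c : Fin 1 → ℝ) (hα : ∀ i, ‖α i‖ = 1)
    (hmir : ∀ i, ∀ x ∈ X, x - (2 * (⟪α i, x⟫ - c i)) • α i ∈ X)
    (H : ∀ K : Set (EuclideanSpace ℝ (Fin d)), IsCompact K → K.Nonempty →
      (∀ i, ∀ v ∈ K, rf (α i) v ∈ K) → (∀ x ∈ K, ∀ y ∈ K, dist x y ≤ Metric.diam X) →
      ∃ C : Fin 1 ⊕ Fin 4 → Set (EuclideanSpace ℝ (Fin d)), K ⊆ ⋃ i, C i ∧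
        ∃ D' < Metric.diam X, ∀ i, ∀ x ∈ C i, ∀ y ∈ C i, dist x y ≤ D') :
    IsSmallerCover X 5 := by
  have hXne : X.Nonempty := by
    by_contra h
    rw [Set.not_nonempty_iff_eq_empty] at h
    rw [h, Metric.diam_empty] at hD
    exact lt_irrefl _ hD
  set p : EuclideanSpace ℝ (Fin d) := c 0 • α 0 with hp0
  have hp : ∀ i, ⟪α i, p⟫ = c i := by
    intro i
    rw [Fin.fin_one_eq_zero i, hp0, inner_smul_right, real_inner_self_eq_norm_sq, hα 0]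
    ring
  have hXK : ∀ x ∈ X, x - p ∈ tr X p := fun x hx => ⟨x, subset_closure hx, rfl⟩
  obtain ⟨x, hx⟩ := hXne
  obtain ⟨C, hC, D', hD', hCd⟩ := H (tr X p) (tr_compact hX p) ⟨x - p, hXK x hx⟩
    (fun i => tr_rf (hp i) (hmir i)) (tr_dist hX p)
  exact smallerCover_of hD p (by simp) C
    (fun x hx => mem_iUnion.1 (hC (hXK x hx))) hD' hCd

end

end Vale.Agent.P052.H768
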