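import Vale.Agent.P052.H768.Two2
import Vale.Agent.P052.H25.OneMain
import Vale.Agent.P052.H638.Cells

/-!
Borsuk's partition problem, mirror symmetric sets in dimension at most four.
-/

namespace Vale.Agent.P052.H768

open Metric Set
open scoped RealInnerProductSpace

/-- Sets of `ℝ^d`, `d ≤ 4`, with a hyperplane of symmetry. -/
theorem main_le_four {d k : ℕ} {X : Set (EuclideanSpace ℝ (Fin d))} (hk : 1 ≤ k) (hd : d ≤ 4)
    (hX : Bornology.IsBounded X)
    (hD : 0 < Metric.diam X) (α : Fin k → EuclideanSpace ℝ (Fin d)) (c : Fin k → ℝ)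
    (hα : ∀ i, ‖α i‖ = 1) (hli : LinearIndependent ℝ α)
    (hmir : ∀ i, ∀ x ∈ X, x - (2 * (⟪α i, x⟫ - c i)) • α i ∈ X) :
    IsSmallerCover X (d + 1) := by
  by_cases h1 : d ≤ k + 1
  · exact main hX hD α c hα hli hmir (Or.inl h1)
  by_cases h2 : d = k + 2
  · exact main_two_small h2 (by omega) hX hD α c hα hli hmir
  have hk1 : k = 1 := by omega
  have hd4 : d = 4 := by omega
  subst hk1 hd4
  exact H25.main_one (by norm_num) (by norm_num) (by norm_num) H638.cells X hX hD α c hα hmir

end Vale.Agent.P052.H768
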