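import Vale.Agent.P052.H25.Two

/-!
Borsuk's partition problem, mirror symmetric sets: `2 ^ m` classes for `m` free dimensions.
-/

namespace Vale.Agent.P052.H768

open Metric Set H25
open scoped RealInnerProductSpace

variable {V : Type*} [NormedAddCommGroup V] [InnerProductSpace ℝ V] [FiniteDimensional ℝ V]

omit [FiniteDimensional ℝ V] in
theorem inner_sub_sub_of_orth {A B P : V} (h1 : ⟪P, B⟫ = 0) (h2 : ⟪P, A⟫ = 0) :
    ⟪A - P, B - P⟫ = ⟪A, B⟫ + ‖P‖ ^ 2 := by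
  have h3 : ⟪A, P⟫ = 0 := by rw [real_inner_comm]; exact h2
  rw [inner_sub_left, inner_sub_right, inner_sub_right, h1, h3, real_inner_self_eq_norm_sq]
  ring

/-- The weighted squared distance. -/
noncomputable def wd (U : Submodule ℝ V) (q x : V) : ℝ :=
  ‖zc U x - q‖ ^ 2 + ‖U.starProjection x‖ ^ 2

theorem continuous_wd (U : Submodule ℝ V) : Continuous fun p : V × V => wd U p.1 p.2 := by
  unfold wd
  have h1 : Continuous fun p : V × V => zc U p.2 := (continuous_zc U).comp continuous_snd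
  exact ((h1.sub continuous_fst).norm.pow 2).add
    (((by fun_prop : Continuous fun p : V × V => U.starProjection p.2)).norm.pow 2)

/-- The weighted radius of `K` seen from `q`. -/
noncomputable def wr (U : Submodule ℝ V) (K : Set V) (q : V) : ℝ := sSup (wd U q '' K)

section
variable (U : Submodule ℝ V) {K : Set V} (hK : IsCompact K) (hne : K.Nonempty)

include hK

theorem continuous_wr : Continuous (wr U K) := hK.continuous_sSup (continuous_wd U)

theorem wd_le_wr (q : V) {x : V} (hx : x ∈ K) : wd U q x ≤ wr U K q := by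
  have hc : Continuous (wd U q) := (continuous_wd U).comp (by fun_prop : Continuous fun x => (q, x))
  exact le_csSup (hK.image hc).bddAbove ⟨x, hx, rfl⟩

include hne

theorem exists_wr (q : V) : ∃ x ∈ K, wr U K q = wd U q x := by
  have hc : Continuous (wd U q) := (continuous_wd U).comp (by fun_prop : Continuous fun x => (q, x))
  obtain ⟨x, hx, h⟩ := (hK.image hc).sSup_mem (hne.image _)
  exact ⟨x, hx, h.symm⟩

/-- The best centre. -/
theorem exists_centre : ∃ q₀, ∀ q, wr U K q₀ ≤ wr U K q := by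
  obtain ⟨x₀, hx₀⟩ := hne
  have h0 : 0 ≤ wr U K 0 := le_trans (by unfold wd; positivity) (wd_le_wr U hK 0 hx₀)
  set R : ℝ := ‖zc U x₀‖ + wr U K 0 + 1 with hR
  have hR0 : 0 ≤ R := by rw [hR]; positivity
  obtain ⟨q₀, hq₀, hmin⟩ := (isCompact_closedBall (0 : V) R).exists_isMinOn
    ⟨0, by simpa using hR0⟩ (continuous_wr U hK).continuousOn
  refine ⟨q₀, fun q => ?_⟩
  by_cases hq : q ∈ closedBall (0 : V) R
  · exact hmin hq
  · have h1 : wr U K q₀ ≤ wr U K 0 := hmin (by simpa using hR0)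
    rw [mem_closedBall_zero_iff, not_le] at hq
    have h2 : wr U K 0 + 1 ≤ ‖zc U x₀ - q‖ := by
      have := norm_sub_norm_le q (zc U x₀)
      rw [norm_sub_rev] at this
      linarith
    have h3 : wr U K 0 + 1 ≤ ‖zc U x₀ - q‖ ^ 2 := by nlinarith
    have h4 := wd_le_wr U hK q hx₀
    have h5 : ‖zc U x₀ - q‖ ^ 2 ≤ wd U q x₀ := by
      unfold wd
      linarith [sq_nonneg ‖U.starProjection x₀‖]
    linarith

/-- At the best centre no direction is positive on all extreme points. -/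
theorem exists_active {q₀ : V} (hq₀ : ∀ q, wr U K q₀ ≤ wr U K q) (e : V) :
    ∃ x ∈ K, wd U q₀ x = wr U K q₀ ∧ ⟪zc U x - q₀, e⟫ ≤ 0 := by
  by_contra hcon
  push Not at hcon
  have hzc := continuous_zc U
  have hφ : Continuous fun x => ⟪zc U x - q₀, e⟫ := by fun_prop
  have hg : Continuous fun x => wr U K q₀ - wd U q₀ x :=
    continuous_const.sub ((continuous_wd U).comp (by fun_prop : Continuous fun x => (q₀, x)))
  obtain ⟨x₁, hx₁, hmin⟩ := hK.exists_isMinOn hne (hg.max hφ).continuousOn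
  set δ : ℝ := max (wr U K q₀ - wd U q₀ x₁) ⟪zc U x₁ - q₀, e⟫ with hδ
  have hδ0 : 0 < δ := by
    rcases (wd_le_wr U hK q₀ hx₁).lt_or_eq with h | h
    · exact lt_max_of_lt_left (by linarith)
    · exact lt_max_of_lt_right (hcon x₁ hx₁ h)
  obtain ⟨x₂, hx₂, hmax⟩ := hK.exists_isMaxOn hne (hφ.abs).continuousOn
  set C : ℝ := |⟪zc U x₂ - q₀, e⟫| with hC
  have hC0 : 0 ≤ C := abs_nonneg _
  set A : ℝ := 2 * C + ‖e‖ ^ 2 + 1 with hA
  have hA0 : 0 < A := by positivity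
  set t : ℝ := min 1 (δ / (2 * A)) with ht
  have ht0 : 0 < t := lt_min one_pos (by positivity)
  have ht1 : t ≤ 1 := min_le_left _ _
  have htA : t * A ≤ δ / 2 := by
    have h1 : t ≤ δ / (2 * A) := min_le_right _ _
    have h2 := mul_le_mul_of_nonneg_right h1 hA0.le
    have h3 : δ / (2 * A) * A = δ / 2 := by field_simp
    linarith
  obtain ⟨x, hx, hmx⟩ := exists_wr U hK hne (q₀ + t • e)
  have h1 := hq₀ (q₀ + t • e)
  rw [hmx] at h1
  have h2 : wd U (q₀ + t • e) x = wd U q₀ x - 2 * t * ⟪zc U x - q₀, e⟫ + t ^ 2 * ‖e‖ ^ 2 := by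
    unfold wd
    have : zc U x - (q₀ + t • e) = (zc U x - q₀) - t • e := by abel
    rw [this, norm_sub_sq_real, inner_smul_right, norm_smul, Real.norm_of_nonneg ht0.le, mul_pow]
    ring
  have h3 : wd U q₀ x ≤ wr U K q₀ := wd_le_wr U hK q₀ hx
  have h4 : δ ≤ max (wr U K q₀ - wd U q₀ x) ⟪zc U x - q₀, e⟫ := hmin hx
  have h5 : |⟪zc U x - q₀, e⟫| ≤ C := hmax hx
  have h6 := (abs_le.1 h5).1
  have h7 : t * ‖e‖ ^ 2 ≤ δ / 2 := by
    have : t * ‖e‖ ^ 2 ≤ t * A := mul_le_mul_of_nonneg_left (by rw [hA]; linarith) ht0.le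
    linarith
  have h8 : t ^ 2 * ‖e‖ ^ 2 ≤ t * (δ / 2) := by
    have := mul_le_mul_of_nonneg_left h7 ht0.le
    calc t ^ 2 * ‖e‖ ^ 2 = t * (t * ‖e‖ ^ 2) := by ring
      _ ≤ t * (δ / 2) := this
  rw [h2] at h1
  rcases le_max_iff.1 h4 with h | h
  · have h9 : t * (2 * C + ‖e‖ ^ 2 + 1) ≤ δ / 2 := htA
    have h10 : -(2 * t * C) ≤ 2 * t * ⟪zc U x - q₀, e⟫ := by nlinarith
    have h11 : t ^ 2 * ‖e‖ ^ 2 ≤ t * ‖e‖ ^ 2 := by
      have : t ^ 2 ≤ t := by nlinarith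
      exact mul_le_mul_of_nonneg_right this (sq_nonneg _)
    nlinarith
  · have h10 : t * δ ≤ t * ⟪zc U x - q₀, e⟫ := mul_le_mul_of_nonneg_left h ht0.le
    nlinarith [mul_pos ht0 hδ0]

end

section
variable {k : ℕ} (b : Fin k → V) (hb : ∀ i, ‖b i‖ = 1) {K : Set V}
  (hK : IsCompact K) (hne : K.Nonempty) (hinv : ∀ i, ∀ v ∈ K, rf (b i) v ∈ K) {D : ℝ}
  (hD0 : 0 < D) (hD : ∀ x ∈ K, ∀ y ∈ K, dist x y ≤ D)

include hb hK hne hinv hD0 hD

/-- The best weighted radius is less than `D / √2`. -/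
theorem wr_lt {q₀ : V} (hq₀ : ∀ q, wr (Submodule.span ℝ (Set.range b)) K q₀ ≤
      wr (Submodule.span ℝ (Set.range b)) K q) :
    2 * wr (Submodule.span ℝ (Set.range b)) K q₀ < D ^ 2 := by
  set U := Submodule.span ℝ (Set.range b) with hU
  by_contra hcon
  push Not at hcon
  set M := wr U K q₀ with hM
  set Act : Set V := {x | x ∈ K ∧ wd U q₀ x = M} with hAct
  have hcw : Continuous (wd U q₀) :=
    (continuous_wd U).comp (by fun_prop : Continuous fun x => (q₀, x))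
  have hActc : IsCompact Act := hK.inter_right (isClosed_eq hcw continuous_const)
  obtain ⟨x₀, hx₀, hx₀'⟩ := exists_wr U hK hne q₀
  have hActne : Act.Nonempty := ⟨x₀, hx₀, hx₀'.symm⟩
  have hzc := continuous_zc U
  have hpair : ∀ x ∈ Act, ∀ y ∈ Act, 0 ≤ ⟪zc U x - q₀, zc U y - q₀⟫ ∧
      2 * ⟪zc U x - q₀, zc U y - q₀⟫
        = ‖zc U x - q₀‖ ^ 2 + ‖zc U y - q₀‖ ^ 2 - ‖zc U x - zc U y‖ ^ 2 := by
    intro x hx y hy
    have h1 : 2 * ⟪zc U x - q₀, zc U y - q₀⟫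
        = ‖zc U x - q₀‖ ^ 2 + ‖zc U y - q₀‖ ^ 2 - ‖zc U x - zc U y‖ ^ 2 := by
      have : zc U x - zc U y = (zc U x - q₀) - (zc U y - q₀) := by abel
      rw [this, norm_sub_sq_real (zc U x - q₀) (zc U y - q₀)]; ring
    have h2 := ineq_one b hb hK hinv hD hx.1 hy.1
    rw [← hU] at h2
    have h3 := hx.2
    have h4 := hy.2
    unfold wd at h3 h4
    exact ⟨by linarith, h1⟩
  have hpos : ∀ x ∈ Act, 0 < ‖zc U x - q₀‖ := by
    intro x hx
    have h1 := ineq_two b hb hK hinv hD0 hD hx.1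
    rw [← hU] at h1
    have h2 := hx.2
    unfold wd at h2
    have h3 : 0 < ‖zc U x - q₀‖ ^ 2 := by linarith
    exact lt_of_le_of_ne (norm_nonneg _) (fun h => by rw [← h] at h3; norm_num at h3)
  obtain ⟨x₁, hx₁, hmin⟩ := hActc.exists_isMinOn hActne
    ((by fun_prop : Continuous fun x => ‖zc U x - q₀‖)).continuousOn
  set r : ℝ := ‖zc U x₁ - q₀‖ with hr
  have hr0 : 0 < r := hpos x₁ hx₁
  obtain ⟨t, htA, htf, htc⟩ := hActc.finite_cover_balls hr0
  obtain ⟨x, hx, hxM, hx0⟩ := exists_active U hK hne hq₀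
    (∑ y ∈ htf.toFinset, (zc U y - q₀))
  have hxA : x ∈ Act := ⟨hx, hxM⟩
  rw [inner_sum] at hx0
  obtain ⟨y, hy, hxy⟩ := mem_iUnion₂.1 (htc hxA)
  have h4 : 0 < ⟪zc U x - q₀, zc U y - q₀⟫ := by
    have h5 := (hpair x hxA y (htA hy)).2
    have h6 : ‖zc U x - zc U y‖ < r := by
      rw [mem_ball, dist_eq_norm] at hxy
      refine lt_of_le_of_lt ?_ hxy
      rw [← zc_sub]
      have h7 := norm_sq_split U (x - y)
      have h8 : ‖zc U (x - y)‖ ^ 2 ≤ ‖x - y‖ ^ 2 := by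
        linarith [sq_nonneg ‖U.starProjection (x - y)‖]
      exact (abs_le_of_sq_le_sq' h8 (norm_nonneg _)).2
    have h9 : ‖zc U x - zc U y‖ ^ 2 < r ^ 2 := pow_lt_pow_left₀ h6 (norm_nonneg _) (by norm_num)
    have h10 : r ^ 2 ≤ ‖zc U x - q₀‖ ^ 2 := pow_le_pow_left₀ hr0.le (hmin hxA) 2
    have h11 := sq_nonneg ‖zc U y - q₀‖
    linarith
  have h6 : 0 < ∑ y ∈ htf.toFinset, ⟪zc U x - q₀, zc U y - q₀⟫ :=
    Finset.sum_pos' (fun i hi => (hpair x hxA i (htA (htf.mem_toFinset.1 hi))).1)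
      ⟨y, htf.mem_toFinset.2 hy, h4⟩
  linarith

/-- **`m` free dimensions: `2 ^ m` further classes.** -/
theorem cover_orthants (hli : LinearIndependent ℝ b) (hob : ∀ i j, i ≠ j → ⟪b i, b j⟫ ≤ 0) :
    ∃ C : Fin k ⊕ (Fin (Module.finrank ℝ (Submodule.span ℝ (Set.range b))ᗮ) → Bool) → Set V,
      K ⊆ ⋃ i, C i ∧ ∃ D' < D, ∀ i, ∀ x ∈ C i, ∀ y ∈ C i, dist x y ≤ D' := by
  set U := Submodule.span ℝ (Set.range b) with hU
  obtain ⟨q₀, hq₀⟩ := exists_centre U hK hne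
  have hM := wr_lt b hb hK hne hinv hD0 hD hq₀
  rw [← hU] at hM
  set R := rem b K with hR
  have hRc : IsCompact R := rem_compact b hK
  set w := stdOrthonormalBasis ℝ Uᗮ with hw
  set sg : Bool → ℝ := fun s => if s then 1 else -1 with hsg
  have hsg2 : ∀ s, sg s * sg s = 1 := by
    intro s; cases s <;> simp [hsg]
  set C : (Fin (Module.finrank ℝ Uᗮ) → Bool) → Set V :=
    fun s => {x | x ∈ R ∧ ∀ i, 0 ≤ sg (s i) * ⟪((w i : Uᗮ) : V), zc U x - zc U q₀⟫} with hC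
  have hzc := continuous_zc U
  have hCc : ∀ s, IsCompact (C s) := by
    intro s
    refine hRc.inter_right ?_
    have : {x : V | ∀ i, 0 ≤ sg (s i) * ⟪((w i : Uᗮ) : V), zc U x - zc U q₀⟫}
        = ⋂ i, {x : V | 0 ≤ sg (s i) * ⟪((w i : Uᗮ) : V), zc U x - zc U q₀⟫} := by ext x; simp
    change IsClosed {x : V | ∀ i, 0 ≤ sg (s i) * ⟪((w i : Uᗮ) : V), zc U x - zc U q₀⟫}
    rw [this]
    exact isClosed_iInter fun i => isClosed_le (by fun_prop) (by fun_prop)
  have hCD : ∀ s, ∀ x ∈ C s, ∀ y ∈ C s, dist x y ≤ D :=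
    fun s x hx y hy => hD x hx.1.1 y hy.1.1
  have hCfar : ∀ s, ∀ x ∈ C s, ∀ y ∈ C s, dist x y ≠ D := by
    intro s x hx y hy hxy
    have e1 := norm_sq_split_sub U x y
    rw [dist_eq_norm] at hxy
    rw [hxy] at e1
    have a1 := rem_acute b hli hob hx.1 hy.1
    rw [← hU] at a1
    have g1 : wd U q₀ x ≤ wr U K q₀ := wd_le_wr U hK q₀ hx.1.1
    have g2 : wd U q₀ y ≤ wr U K q₀ := wd_le_wr U hK q₀ hy.1.1
    unfold wd at g1 g2
    have e2 : ‖zc U x - zc U y‖ ^ 2 = ‖zc U x - q₀‖ ^ 2 + ‖zc U y - q₀‖ ^ 2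
        - 2 * ⟪zc U x - q₀, zc U y - q₀⟫ := by
      have : zc U x - zc U y = (zc U x - q₀) - (zc U y - q₀) := by abel
      rw [this, norm_sub_sq_real]; ring
    have e3 : ⟪zc U x - q₀, zc U y - q₀⟫ = ⟪zc U x - zc U q₀, zc U y - zc U q₀⟫
        + ‖U.starProjection q₀‖ ^ 2 := by
      have hx' : zc U x - q₀ = (zc U x - zc U q₀) - U.starProjection q₀ := by
        nth_rw 1 [← sp_add_zc U q₀]; abel
      have hy' : zc U y - q₀ = (zc U y - zc U q₀) - U.starProjection q₀ := by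
        nth_rw 1 [← sp_add_zc U q₀]; abel
      have o1 : ⟪U.starProjection q₀, zc U y - zc U q₀⟫ = 0 := by
        rw [← zc_sub]; exact inner_zc U (sp_mem U q₀) _
      have o2 : ⟪U.starProjection q₀, zc U x - zc U q₀⟫ = 0 := by
        rw [← zc_sub]; exact inner_zc U (sp_mem U q₀) _
      rw [hx', hy']
      exact inner_sub_sub_of_orth o1 o2
    have e4 : 0 ≤ ⟪zc U x - zc U q₀, zc U y - zc U q₀⟫ := by
      set X' : Uᗮ := ⟨zc U x - zc U q₀, by rw [← zc_sub]; exact zc_mem U _⟩ with hX'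
      set Y' : Uᗮ := ⟨zc U y - zc U q₀, by rw [← zc_sub]; exact zc_mem U _⟩ with hY'
      have h1 : ⟪zc U x - zc U q₀, zc U y - zc U q₀⟫ = ⟪X', Y'⟫ := rfl
      rw [h1, ← w.sum_inner_mul_inner X' Y']
      refine Finset.sum_nonneg fun i _ => ?_
      have h2 : 0 ≤ sg (s i) * ⟪w i, X'⟫ := hx.2 i
      have h3 : 0 ≤ sg (s i) * ⟪w i, Y'⟫ := hy.2 i
      have h4 := mul_nonneg h2 h3
      have h5 : sg (s i) * ⟪w i, X'⟫ * (sg (s i) * ⟪w i, Y'⟫)
          = sg (s i) * sg (s i) * (⟪w i, X'⟫ * ⟪w i, Y'⟫) := by ring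
      rw [h5, hsg2, one_mul] at h4
      rw [real_inner_comm]
      exact h4
    have := sq_nonneg ‖U.starProjection q₀‖
    rw [e2, e3] at e1
    linarith
  choose O hO1 hO2 hO3 using fun s => exists_open_nofar (hCc s) (hCD s) (hCfar s)
  refine core_cover b hb hK hinv hD (κ := Fin (Module.finrank ℝ Uᗮ) → Bool) O hO1 ?_ ?_
  · intro x hx
    refine ⟨fun i => decide (0 ≤ ⟪((w i : Uᗮ) : V), zc U x - zc U q₀⟫), hO2 _ ⟨hx, fun i => ?_⟩⟩
    by_cases h : 0 ≤ ⟪((w i : Uᗮ) : V), zc U x - zc U q₀⟫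
    · simp only [hsg, h, decide_true, if_true, one_mul]
    · simp only [hsg, h, decide_false, Bool.false_eq_true, if_false]
      push Not at h
      linarith
  · intro j x _ y _ h1 h2
    exact hO3 j x h1 y h2

end

/-- Sets of `ℝ^d` with `k` independent mirrors: `k + 2 ^ (d - k)` sets of smaller diameter. -/
theorem main_orthants {d k : ℕ} {X : Set (EuclideanSpace ℝ (Fin d))} (hX : Bornology.IsBounded X)
    (hD : 0 < Metric.diam X) (α : Fin k → EuclideanSpace ℝ (Fin d)) (c : Fin k → ℝ)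
    (hα : ∀ i, ‖α i‖ = 1) (hli : LinearIndependent ℝ α)
    (hmir : ∀ i, ∀ x ∈ X, x - (2 * (⟪α i, x⟫ - c i)) • α i ∈ X) :
    IsSmallerCover X (k + 2 ^ (d - k)) := by
  have hfr : Module.finrank ℝ (Submodule.span ℝ (Set.range α))
      + Module.finrank ℝ (Submodule.span ℝ (Set.range α))ᗮ = d := by
    rw [Submodule.finrank_add_finrank_orthogonal, finrank_euclideanSpace_fin]
  rw [finrank_span_eq_card hli, Fintype.card_fin] at hfr
  obtain ⟨p, hp⟩ := exists_inner_eq α hli c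
  have hKc := tr_compact hX p
  have hKD := tr_dist hX p
  obtain ⟨b, hb1, hbinv, hbli, hbspan, hbob⟩ := exists_mirrors hX α c hα hli hmir p hp
  have hXK : ∀ x ∈ X, x - p ∈ tr X p := fun x hx => ⟨x, subset_closure hx, rfl⟩
  have hXne : X.Nonempty := by
    by_contra h
    rw [Set.not_nonempty_iff_eq_empty] at h
    rw [h, Metric.diam_empty] at hD
    exact lt_irrefl _ hD
  have hKne : (tr X p).Nonempty := by
    obtain ⟨x, hx⟩ := hXne
    exact ⟨x - p, hXK x hx⟩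
  obtain ⟨C, hC, D', hD', hCd⟩ := cover_orthants b hb1 hKc hKne hbinv hD hKD hbli hbob
  refine smallerCover_of hD p ?_ C (fun x hx => mem_iUnion.1 (hC (hXK x hx))) hD' hCd
  rw [Fintype.card_sum, Fintype.card_fin, Fintype.card_pi]
  simp only [Fintype.card_bool, Finset.prod_const, Finset.card_univ, Fintype.card_fin]
  rw [hbspan, show Module.finrank ℝ (Submodule.span ℝ (Set.range α))ᗮ = d - k by omega]

end Vale.Agent.P052.H768
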