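import Vale.Agent.P052.H25.Three

/-!
Borsuk's partition problem, irreducible mirror systems with three free dimensions.
-/

namespace Vale.Agent.P052.H768

open Metric Set H25
open scoped RealInnerProductSpace

section
variable {d k : ℕ} {X : Set (EuclideanSpace ℝ (Fin d))}

/-- Sets of `ℝ^d` with `d - 3` independent mirrors whose normals do not split, all of whose points
are at distance at most `D / 2` from the common intersection of the mirrors. -/
theorem main_three_irred (hdk : d = k + 3) (hX : Bornology.IsBounded X)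
    (hD : 0 < Metric.diam X) (α : Fin k → EuclideanSpace ℝ (Fin d)) (c : Fin k → ℝ)
    (hα : ∀ i, ‖α i‖ = 1) (hli : LinearIndependent ℝ α)
    (hmir : ∀ i, ∀ x ∈ X, x - (2 * (⟪α i, x⟫ - c i)) • α i ∈ X)
    (hirr : ∀ J : Set (Fin k), J.Nonempty → J ≠ Set.univ → ∃ i ∈ J, ∃ j ∉ J, ⟪α i, α j⟫ ≠ 0)
    (hnear : ∀ x ∈ X, ∃ y, (∀ i, ⟪α i, y⟫ = c i) ∧ 2 * dist x y ≤ Metric.diam X) :
    IsSmallerCover X (d + 1) := by
  have hfr : Module.finrank ℝ (Submodule.span ℝ (Set.range α))
      + Module.finrank ℝ (Submodule.span ℝ (Set.range α))ᗮ = d := by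
    rw [Submodule.finrank_add_finrank_orthogonal, finrank_euclideanSpace_fin]
  rw [finrank_span_eq_card hli, Fintype.card_fin] at hfr
  obtain ⟨p, hp⟩ := exists_inner_eq α hli c
  set κ : Fin k → Unit := fun _ => () with hκdef
  have hκ : IsBlocks α κ := by
    refine ⟨fun i j h => absurd rfl h, fun J hJ i hi j _ => ?_⟩
    by_contra hj
    obtain ⟨i', hi', j', hj', h⟩ := hirr J ⟨i, hi⟩ (fun h => hj (by rw [h]; exact mem_univ j))
    exact h (hJ i' hi' j' hj')
  have hzero : ∀ z, (blk α κ ()).starProjection z = 0 →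
      (Submodule.span ℝ (Set.range α)).starProjection z = 0 := by
    intro z hz
    refine eq_zero_of_mem_span α (sp_mem _ z) fun i => ?_
    have hi : α i ∈ Submodule.span ℝ (Set.range α) := Submodule.subset_span ⟨i, rfl⟩
    rw [inner_sp _ hi, ← inner_sp _ (mem_blk α κ (rfl : κ i = ())), hz, inner_zero_right]
  have hKc := tr_compact hX p
  have hKD := tr_dist hX p
  obtain ⟨b, hb1, hbinv, hbli, hbspan, hbob⟩ := exists_mirrors hX α c hα hli hmir p hp
  have hXK : ∀ x ∈ X, x - p ∈ tr X p := fun x hx => ⟨x, subset_closure hx, rfl⟩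
  have hXne : X.Nonempty := by
    by_contra h
    rw [Set.not_nonempty_iff_eq_empty] at h
    rw [h, Metric.diam_empty] at hD
    exact lt_irrefl _ hD
  have hKne : (tr X p).Nonempty := by
    obtain ⟨x, hx⟩ := hXne
    exact ⟨x - p, hXK x hx⟩
  have hhalf : ∀ x ∈ tr X p,
      2 * ‖(Submodule.span ℝ (Set.range α)).starProjection x‖ ≤ Metric.diam X := by
    rintro _ ⟨x, hx, rfl⟩
    have hcl : IsClosed {x : EuclideanSpace ℝ (Fin d) |
        2 * ‖(Submodule.span ℝ (Set.range α)).starProjection (x - p)‖ ≤ Metric.diam X} :=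
      isClosed_le (by fun_prop) continuous_const
    refine closure_minimal ?_ hcl hx
    intro x hx
    obtain ⟨y, hy, hxy⟩ := hnear x hx
    have h0 : (Submodule.span ℝ (Set.range α)).starProjection (y - p) = 0 := by
      refine eq_zero_of_mem_span α (sp_mem _ _) fun i => ?_
      have hi : α i ∈ Submodule.span ℝ (Set.range α) := Submodule.subset_span ⟨i, rfl⟩
      rw [inner_sp _ hi, inner_sub_right, hy i, hp i, sub_self]
    have h1 : (Submodule.span ℝ (Set.range α)).starProjection (x - p)
        = (Submodule.span ℝ (Set.range α)).starProjection (x - y) := by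
      have : x - p = (x - y) + (y - p) := by abel
      rw [this, map_add, h0, add_zero]
    have h2 : ‖(Submodule.span ℝ (Set.range α)).starProjection (x - y)‖ ≤ ‖x - y‖ :=
      Submodule.norm_starProjection_apply_le _ _
    change 2 * ‖(Submodule.span ℝ (Set.range α)).starProjection (x - p)‖ ≤ Metric.diam X
    rw [h1]
    rw [dist_eq_norm] at hxy
    linarith
  obtain ⟨C, hC, D', hD', hCd⟩ := cover_three b hb1 hbli hbob hKc hKne hbinv hD hKD
    (by rw [hbspan]; omega) (by rw [hbspan]; exact hhalf) (by
      intro x hx y hy hxy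
      rw [hbspan]
      by_contra hcon
      push Not at hcon
      have h4 := ineq_blocks α hα κ hκ (fun i => tr_rf (hp i) (hmir i)) hKc hKD hx.1 hy.1
        (s := ()) (fun h => hcon.1 (hzero x h)) (fun h => hcon.2 (hzero y h))
      have h5 := rem_acute b hbli hbob hx hy
      have h6 := norm_sq_split_sub (Submodule.span ℝ (Set.range α)) x y
      rw [hbspan] at h5
      rw [dist_eq_norm] at hxy
      rw [hxy] at h6
      linarith)
  exact smallerCover_of hD p (by simp; omega) C
    (fun x hx => mem_iUnion.1 (hC (hXK x hx))) hD' hCd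

end

end Vale.Agent.P052.H768
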